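import Vale.Agent.Lib.P047.Defs

namespace Vale.Agent.Lib.P047

open Finset

theorem sgn_false : sgn false = 1 := by simp [sgn]
theorem sgn_true : sgn true = -1 := by simp [sgn]

theorem sgn_mul_self (b : Bool) : sgn b * sgn b = 1 := by cases b <;> simp [sgn]

theorem sgn_xor (a b : Bool) : sgn (xor a b) = sgn a * sgn b := by
  cases a <;> cases b <;> simp [sgn]

theorem sgn_ne_zero (b : Bool) : sgn b ≠ 0 := by cases b <;> simp [sgn]

theorem sum_sgn : ∑ b : Bool, sgn b = 0 := by simp [sgn]

section
variable {ι : Type} [Fintype ι] [DecidableEq ι]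

/-- sum over the cube of a product of coordinate functions -/
theorem sum_prod_coord (φ : ι → Bool → ℝ) :
    ∑ x : ι → Bool, ∏ i, φ i (x i) = ∏ i, ∑ b : Bool, φ i b :=
  (Fintype.prod_sum φ).symm

theorem chi_eq_prod_ite (S : Finset ι) (x : ι → Bool) :
    chi S x = ∏ i, (if i ∈ S then sgn (x i) else 1) := by
  unfold chi
  rw [Finset.prod_ite_mem, Finset.univ_inter]

theorem chi_empty (x : ι → Bool) : chi (∅ : Finset ι) x = 1 := by simp [chi]

theorem card_cube : (Fintype.card (ι → Bool) : ℝ) = 2 ^ Fintype.card ι := by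
  simp

theorem sum_chi (S : Finset ι) :
    ∑ x : ι → Bool, chi S x = if S = ∅ then (2 : ℝ) ^ Fintype.card ι else 0 := by
  simp_rw [chi_eq_prod_ite]
  rw [sum_prod_coord (fun i b => if i ∈ S then sgn b else 1)]
  split_ifs with h
  · subst h
    simp
  · obtain ⟨i, hi⟩ := Finset.nonempty_iff_ne_empty.mpr h
    apply Finset.prod_eq_zero (Finset.mem_univ i)
    simp [hi, sgn]

/-- completeness relation -/
theorem sum_chi_chi (x y : ι → Bool) :
    ∑ S : Finset ι, chi S x * chi S y = if x = y then (2 : ℝ) ^ Fintype.card ι else 0 := by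
  have h1 : ∀ S : Finset ι, chi S x * chi S y = ∏ i ∈ S, (sgn (x i) * sgn (y i)) := by
    intro S
    unfold chi
    rw [Finset.prod_mul_distrib]
  simp_rw [h1]
  have h2 := Finset.prod_one_add (f := fun i => sgn (x i) * sgn (y i)) (Finset.univ : Finset ι)
  rw [Finset.powerset_univ] at h2
  rw [← h2]
  split_ifs with h
  · subst h
    simp [sgn_mul_self]
    norm_num
  · obtain ⟨i, hi⟩ := Function.ne_iff.mp h
    apply Finset.prod_eq_zero (Finset.mem_univ i)
    revert hi
    cases x i <;> cases y i <;> simp [sgn]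

/-- Fourier inversion -/
theorem fourier_inversion (f : (ι → Bool) → ℝ) (y : ι → Bool) :
    f y = ∑ S : Finset ι, fhat f S * chi S y := by
  unfold fhat
  have : ∀ S : Finset ι, (∑ x : ι → Bool, f x * chi S x) / 2 ^ Fintype.card ι * chi S y
      = ∑ x : ι → Bool, f x * (chi S x * chi S y) / 2 ^ Fintype.card ι := by
    intro S
    rw [Finset.sum_div, Finset.sum_mul]
    apply Finset.sum_congr rfl
    intro x _
    ring
  simp_rw [this]
  rw [Finset.sum_comm]
  have h3 : ∀ x : ι → Bool, ∑ S : Finset ι, f x * (chi S x * chi S y) / 2 ^ Fintype.card ι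
      = if x = y then f x else 0 := by
    intro x
    rw [← Finset.sum_div, ← Finset.mul_sum, sum_chi_chi]
    split_ifs with h
    · field_simp
    · simp
  simp_rw [h3]
  simp

end

end Vale.Agent.Lib.P047
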