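import Vale.Agent.Lib.P047.Comp

namespace Vale.Agent.Lib.P047

open Finset

section
variable {ι : Type} [Fintype ι] [DecidableEq ι]

theorem card_le_degree (f : (ι → Bool) → ℝ) (S : Finset ι) (h : fhat f S ≠ 0) :
    S.card ≤ degree f := by
  unfold degree
  exact Finset.le_sup (f := Finset.card) (by simp [h])

theorem degree_le (f : (ι → Bool) → ℝ) (d : ℕ) (h : ∀ S : Finset ι, fhat f S ≠ 0 → S.card ≤ d) :
    degree f ≤ d := by
  unfold degree
  apply Finset.sup_le
  intro S hS
  rw [Finset.mem_filter] at hS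
  exact h S hS.2

theorem mean_eq (f : (ι → Bool) → ℝ) :
    fhat f ∅ = (∑ x : ι → Bool, f x) / 2 ^ Fintype.card ι := by
  unfold fhat
  simp [chi_empty]

end

section
variable {ι κ : Type} [Fintype ι] [DecidableEq ι] [Fintype κ] [DecidableEq κ]

theorem fib_singleton (i : ι) (k : κ) : fib ({(i, k)} : Finset (ι × κ)) i = {k} := by
  ext k'
  simp [fib]

theorem mean_comp (f : (ι → Bool) → ℝ) (g : (κ → Bool) → Bool)
    (hg : ∑ y : κ → Bool, sgn (g y) = 0) :
    fhat (comp f g) ∅ = fhat f ∅ := by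
  rw [fhat_comp f g hg]
  simp

theorem linSum_comp (f : (ι → Bool) → ℝ) (g : (κ → Bool) → Bool)
    (hg : ∑ y : κ → Bool, sgn (g y) = 0) :
    linSum (comp f g) = linSum f * linSum (re g) := by
  unfold linSum
  rw [Fintype.sum_prod_type, Finset.sum_mul_sum]
  apply Finset.sum_congr rfl
  intro i _
  apply Finset.sum_congr rfl
  intro k _
  rw [fhat_comp f g hg]
  simp [fib_singleton]

theorem degree_comp (f : (ι → Bool) → ℝ) (g : (κ → Bool) → Bool)
    (hg : ∑ y : κ → Bool, sgn (g y) = 0) :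
    degree (comp f g) ≤ degree f * degree (re g) := by
  apply degree_le
  intro T hT
  rw [fhat_comp f g hg] at hT
  have h1 : fhat f (T.image Prod.fst) ≠ 0 := left_ne_zero_of_mul hT
  have h2 : ∏ i ∈ T.image Prod.fst, fhat (re g) (fib T i) ≠ 0 := right_ne_zero_of_mul hT
  rw [Finset.prod_ne_zero_iff] at h2
  rw [card_eq_sum_fib]
  calc ∑ i ∈ T.image Prod.fst, (fib T i).card
      ≤ ∑ _i ∈ T.image Prod.fst, degree (re g) :=
        Finset.sum_le_sum (fun i hi => card_le_degree (re g) (fib T i) (h2 i hi))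
    _ = (T.image Prod.fst).card * degree (re g) := by simp
    _ ≤ degree f * degree (re g) := Nat.mul_le_mul_right _ (card_le_degree f _ h1)

end

end Vale.Agent.Lib.P047
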