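import Vale.Agent.Lib.P047.Basic
import Vale.Agent.Lib.P047.Comp2
import Vale.Agent.Lib.P316.Bias

/-!
A differential inequality for the bias polynomial `P(t) = ∑_T f̂(T) t^{|T|}` of a Boolean function
of degree at most `d`:  `(1 - t²) |P'(t)| ≤ d (1 - P(t)²)` for `|t| ≤ 1`.

The proof expands `f` in the shifted characters `ψ_S(y) = ∏_{j ∈ S} (y_j - t)`, which are
orthogonal for the product measure with coordinate means `t`.
-/

namespace Vale.Agent.Lib.P047

open Finset Polynomial
open Vale.Agent.Lib.P316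

section
variable {κ : Type} [Fintype κ] [DecidableEq κ]

/-- `2^n` times the weight of a point under the product measure with coordinate means `t` -/
def wgt (t : ℝ) (y : κ → Bool) : ℝ := ∏ j, (1 + t * sgn (y j))

/-- the shifted character `∏_{j ∈ S} (y_j - t)` -/
def psi (t : ℝ) (S : Finset κ) (y : κ → Bool) : ℝ := ∏ j ∈ S, (sgn (y j) - t)

/-- the coefficients of `f` in the shifted characters -/
noncomputable def cc (f : (κ → Bool) → ℝ) (t : ℝ) (S : Finset κ) : ℝ :=
  ∑ T : Finset κ, if S ⊆ T then fhat f T * t ^ (T.card - S.card) else 0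

theorem chi_expand (t : ℝ) (T : Finset κ) (y : κ → Bool) :
    chi T y = ∑ S : Finset κ, if S ⊆ T then psi t S y * t ^ (T.card - S.card) else 0 := by
  unfold chi
  have h : ∀ j ∈ T, sgn (y j) = (sgn (y j) - t) + t := fun j _ => by ring
  rw [Finset.prod_congr rfl h, Finset.prod_add, ← Finset.sum_filter]
  have hfl : (Finset.univ.filter (fun S : Finset κ => S ⊆ T)) = T.powerset := by
    ext S; simp
  rw [hfl]
  apply Finset.sum_congr rfl
  intro S hS
  rw [Finset.mem_powerset] at hS
  rw [Finset.prod_const, Finset.card_sdiff_of_subset hS]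
  rfl

theorem f_expand (f : (κ → Bool) → ℝ) (t : ℝ) (y : κ → Bool) :
    f y = ∑ S : Finset κ, cc f t S * psi t S y := by
  rw [fourier_inversion f y]
  have h1 : ∀ T : Finset κ, fhat f T * chi T y
      = ∑ S : Finset κ, if S ⊆ T then fhat f T * t ^ (T.card - S.card) * psi t S y else 0 := by
    intro T
    rw [chi_expand t T y, Finset.mul_sum]
    apply Finset.sum_congr rfl
    intro S _
    split_ifs <;> ring
  simp_rw [h1]
  rw [Finset.sum_comm]
  apply Finset.sum_congr rfl
  intro S _
  unfold cc
  rw [Finset.sum_mul]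
  apply Finset.sum_congr rfl
  intro T _
  split_ifs <;> ring

theorem psi_eq_prod_ite (t : ℝ) (S : Finset κ) (y : κ → Bool) :
    psi t S y = ∏ j, (if j ∈ S then (sgn (y j) - t) else 1) := by
  unfold psi
  rw [Finset.prod_ite_mem, Finset.univ_inter]

theorem sum_wgt_psi_psi (t : ℝ) (S S' : Finset κ) :
    ∑ y : κ → Bool, wgt t y * (psi t S y * psi t S' y)
      = if S = S' then 2 ^ Fintype.card κ * (1 - t ^ 2) ^ S.card else 0 := by
  have h1 : ∀ y : κ → Bool, wgt t y * (psi t S y * psi t S' y)
      = ∏ j, ((1 + t * sgn (y j)) * ((if j ∈ S then (sgn (y j) - t) else 1)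
          * (if j ∈ S' then (sgn (y j) - t) else 1))) := by
    intro y
    rw [psi_eq_prod_ite, psi_eq_prod_ite]
    unfold wgt
    rw [← Finset.prod_mul_distrib, ← Finset.prod_mul_distrib]
  simp_rw [h1]
  rw [sum_prod_coord (fun j b => (1 + t * sgn b) * ((if j ∈ S then (sgn b - t) else 1)
          * (if j ∈ S' then (sgn b - t) else 1)))]
  have h2 : ∀ j : κ, ∑ b : Bool, (1 + t * sgn b) * ((if j ∈ S then (sgn b - t) else 1)
          * (if j ∈ S' then (sgn b - t) else 1))
      = if j ∈ S then (if j ∈ S' then 2 * (1 - t ^ 2) else 0)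
          else (if j ∈ S' then 0 else 2) := by
    intro j
    rw [Fintype.sum_bool]
    simp only [sgn_true, sgn_false]
    split_ifs <;> ring
  simp_rw [h2]
  split_ifs with h
  · subst h
    have h3 : ∀ j : κ, (if j ∈ S then (if j ∈ S then 2 * (1 - t ^ 2) else 0)
          else (if j ∈ S then 0 else 2)) = 2 * (if j ∈ S then (1 - t ^ 2) else 1) := by
      intro j; split_ifs <;> ring
    simp_rw [h3]
    rw [Finset.prod_mul_distrib, Finset.prod_const, Finset.prod_ite_mem, Finset.univ_inter,
      Finset.prod_const, Finset.card_univ]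
  · obtain ⟨j, hj⟩ : ∃ j, ¬ (j ∈ S ↔ j ∈ S') := by
      by_contra hc
      push_neg at hc
      exact h (Finset.ext hc)
    apply Finset.prod_eq_zero (Finset.mem_univ j)
    by_cases h1 : j ∈ S <;> by_cases h2 : j ∈ S' <;> simp [h1, h2] at hj ⊢

theorem inner_expand (t : ℝ) (a b : Finset κ → ℝ) :
    ∑ y : κ → Bool, wgt t y * ((∑ S, a S * psi t S y) * (∑ S, b S * psi t S y))
      = 2 ^ Fintype.card κ * ∑ S, a S * b S * (1 - t ^ 2) ^ S.card := by
  have h1 : ∀ y : κ → Bool, wgt t y * ((∑ S, a S * psi t S y) * (∑ S, b S * psi t S y))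
      = ∑ S, ∑ S', a S * b S' * (wgt t y * (psi t S y * psi t S' y)) := by
    intro y
    rw [Finset.sum_mul_sum, Finset.mul_sum]
    apply Finset.sum_congr rfl; intro S _
    rw [Finset.mul_sum]
    apply Finset.sum_congr rfl; intro S' _
    ring
  simp_rw [h1]
  rw [Finset.sum_comm]
  have h2 : ∀ S : Finset κ,
      ∑ y : κ → Bool, ∑ S', a S * b S' * (wgt t y * (psi t S y * psi t S' y))
      = 2 ^ Fintype.card κ * (a S * b S * (1 - t ^ 2) ^ S.card) := by
    intro S
    rw [Finset.sum_comm]
    simp_rw [← Finset.mul_sum, sum_wgt_psi_psi]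
    simp only [mul_ite, mul_zero, Finset.sum_ite_eq, Finset.mem_univ, if_true]
    ring
  simp_rw [h2]
  rw [← Finset.mul_sum]

theorem sum_wgt (t : ℝ) : ∑ y : κ → Bool, wgt t y = 2 ^ Fintype.card κ := by
  unfold wgt
  rw [sum_prod_coord (fun _ b => 1 + t * sgn b)]
  have : ∑ b : Bool, (1 + t * sgn b) = 2 := by
    simp [sgn]
    ring
  rw [this, Finset.prod_const, Finset.card_univ]

theorem wgt_nonneg {t : ℝ} (ht : |t| ≤ 1) (y : κ → Bool) : 0 ≤ wgt t y := by
  apply Finset.prod_nonneg
  intro j _
  have := abs_le.mp ht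
  cases y j <;> simp [sgn] <;> linarith

theorem cc_eq_zero (f : (κ → Bool) → ℝ) (t : ℝ) (d : ℕ)
    (hd : ∀ T : Finset κ, d < T.card → fhat f T = 0) (S : Finset κ) (hS : d < S.card) :
    cc f t S = 0 := by
  unfold cc
  apply Finset.sum_eq_zero
  intro T _
  split_ifs with h
  · rw [hd T (lt_of_lt_of_le hS (Finset.card_le_card h))]; ring
  · rfl

/-- Parseval for the shifted characters, for a Boolean function -/
theorem sum_cc_sq (f : (κ → Bool) → ℝ) (hf : IsBoolean f) (t : ℝ) :
    ∑ S : Finset κ, cc f t S * cc f t S * (1 - t ^ 2) ^ S.card = 1 := by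
  have h := inner_expand t (cc f t) (cc f t)
  have h1 : ∀ y : κ → Bool,
      wgt t y * ((∑ S, cc f t S * psi t S y) * (∑ S, cc f t S * psi t S y)) = wgt t y := by
    intro y
    rw [← f_expand f t y]
    rcases hf y with h | h <;> rw [h] <;> ring
  simp_rw [h1] at h
  rw [sum_wgt] at h
  have hne : (2 : ℝ) ^ Fintype.card κ ≠ 0 := by positivity
  have h2 : (2 : ℝ) ^ Fintype.card κ
      * ∑ S : Finset κ, cc f t S * cc f t S * (1 - t ^ 2) ^ S.card
      = 2 ^ Fintype.card κ * 1 := by
    rw [← h]; ring
  exact mul_left_cancel₀ hne h2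

theorem psi_update_of_notMem (t : ℝ) (S : Finset κ) (i : κ) (hi : i ∉ S) (y : κ → Bool) (b : Bool) :
    psi t S (Function.update y i b) = psi t S y := by
  unfold psi
  apply Finset.prod_congr rfl
  intro j hj
  have : j ≠ i := fun h => hi (h ▸ hj)
  rw [Function.update_of_ne this]

theorem psi_eq_mul_erase (t : ℝ) (S : Finset κ) (i : κ) (hi : i ∈ S) (y : κ → Bool) :
    psi t S y = (sgn (y i) - t) * psi t (S.erase i) y := by
  unfold psi
  rw [Finset.mul_prod_erase S (fun j => sgn (y j) - t) hi]

/-- the key pointwise inequality for one coordinate -/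
theorem coord_ineq (f : (κ → Bool) → ℝ) (hf : IsBoolean f) (t : ℝ) (ht : |t| ≤ 1) (i : κ) :
    (1 - t ^ 2) * |cc f t {i}|
      ≤ ∑ S : Finset κ, if i ∈ S then cc f t S * cc f t S * (1 - t ^ 2) ^ S.card else 0 := by
  -- the two parts of `f`
  set Bf : (κ → Bool) → ℝ := fun y =>
    ∑ S : Finset κ, if i ∈ S then cc f t S * psi t (S.erase i) y else 0 with hBf
  set Af : (κ → Bool) → ℝ := fun y =>
    ∑ S : Finset κ, if i ∈ S then 0 else cc f t S * psi t S y with hAf
  have hsplit : ∀ y : κ → Bool, f y = Af y + (sgn (y i) - t) * Bf y := by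
    intro y
    rw [f_expand f t y, hAf, hBf]
    simp only
    rw [Finset.mul_sum, ← Finset.sum_add_distrib]
    apply Finset.sum_congr rfl
    intro S _
    split_ifs with h
    · rw [psi_eq_mul_erase t S i h y]; ring
    · ring
  have hA : ∀ (y : κ → Bool) (b : Bool), Af (Function.update y i b) = Af y := by
    intro y b
    rw [hAf]
    simp only
    apply Finset.sum_congr rfl
    intro S _
    split_ifs with h
    · rfl
    · rw [psi_update_of_notMem t S i h y b]
  have hB : ∀ (y : κ → Bool) (b : Bool), Bf (Function.update y i b) = Bf y := by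
    intro y b
    rw [hBf]
    simp only
    apply Finset.sum_congr rfl
    intro S _
    split_ifs with h
    · rw [psi_update_of_notMem t (S.erase i) i (Finset.notMem_erase i S) y b]
    · rfl
  have hBval : ∀ y : κ → Bool, Bf y = 1 ∨ Bf y = 0 ∨ Bf y = -1 := by
    intro y
    have e1 := hsplit (Function.update y i false)
    have e2 := hsplit (Function.update y i true)
    rw [hA, hB, Function.update_self] at e1 e2
    rw [sgn_false] at e1
    rw [sgn_true] at e2
    have e3 : Bf y = (f (Function.update y i false) - f (Function.update y i true)) / 2 := by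
      rw [e1, e2]; ring
    rcases hf (Function.update y i false) with h1 | h1 <;>
      rcases hf (Function.update y i true) with h2 | h2 <;>
      rw [h1, h2] at e3 <;> norm_num at e3 <;> simp [e3]
  -- the part of `f` that depends on coordinate `i`
  have hfi : ∀ y : κ → Bool,
      ∑ S : Finset κ, (if i ∈ S then cc f t S else 0) * psi t S y = (sgn (y i) - t) * Bf y := by
    intro y
    rw [hBf]
    simp only
    rw [Finset.mul_sum]
    apply Finset.sum_congr rfl
    intro S _
    split_ifs with h
    · rw [psi_eq_mul_erase t S i h y]; ring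
    · ring
  have hpsi : ∀ y : κ → Bool,
      ∑ S : Finset κ, (if S = {i} then (1 : ℝ) else 0) * psi t S y = sgn (y i) - t := by
    intro y
    simp [psi]
  have I1 := inner_expand t (fun S => if i ∈ S then cc f t S else 0)
    (fun S => if i ∈ S then cc f t S else 0)
  have I2 := inner_expand t (fun S => if i ∈ S then cc f t S else 0)
    (fun S => if S = {i} then (1 : ℝ) else 0)
  simp_rw [hfi] at I1
  simp_rw [hfi, hpsi] at I2
  have e2 : ∑ S : Finset κ, (if i ∈ S then cc f t S else 0) * (if S = {i} then (1 : ℝ) else 0)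
        * (1 - t ^ 2) ^ S.card = cc f t {i} * (1 - t ^ 2) := by
    simp
  rw [e2] at I2
  have e1 : ∑ S : Finset κ, (if i ∈ S then cc f t S else 0) * (if i ∈ S then cc f t S else 0)
        * (1 - t ^ 2) ^ S.card
      = ∑ S : Finset κ, if i ∈ S then cc f t S * cc f t S * (1 - t ^ 2) ^ S.card else 0 := by
    apply Finset.sum_congr rfl
    intro S _
    split_ifs <;> ring
  rw [e1] at I1
  -- pointwise comparison
  have hpt : ∀ y : κ → Bool,
      |wgt t y * ((sgn (y i) - t) * Bf y * (sgn (y i) - t))|
        = wgt t y * ((sgn (y i) - t) * Bf y * ((sgn (y i) - t) * Bf y)) := by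
    intro y
    have hw := wgt_nonneg ht y
    rw [abs_mul, abs_of_nonneg hw]
    congr 1
    rcases hBval y with h | h | h <;> rw [h]
    · rw [abs_of_nonneg (by nlinarith [sq_nonneg (sgn (y i) - t)])]; ring
    · simp
    · have : (sgn (y i) - t) * -1 * (sgn (y i) - t) = -((sgn (y i) - t) * (sgn (y i) - t)) := by
        ring
      rw [this, abs_neg, abs_of_nonneg (by nlinarith [sq_nonneg (sgn (y i) - t)])]; ring
  have hle : |∑ y : κ → Bool, wgt t y * ((sgn (y i) - t) * Bf y * (sgn (y i) - t))|
      ≤ ∑ y : κ → Bool, wgt t y * ((sgn (y i) - t) * Bf y * ((sgn (y i) - t) * Bf y)) := by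
    refine (Finset.abs_sum_le_sum_abs _ _).trans (le_of_eq ?_)
    apply Finset.sum_congr rfl
    intro y _
    exact hpt y
  rw [I1, I2] at hle
  have hpos : (0 : ℝ) < 2 ^ Fintype.card κ := by positivity
  have h1t : 0 ≤ 1 - t ^ 2 := by
    have := abs_le.mp ht
    nlinarith
  rw [abs_mul, abs_of_pos hpos, abs_mul, abs_of_nonneg h1t] at hle
  have := le_of_mul_le_mul_left hle hpos
  linarith

theorem eval_biasPoly_eq_cc (f : (κ → Bool) → ℝ) (t : ℝ) :
    (biasPoly f).eval t = cc f t ∅ := by
  unfold biasPoly cc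
  simp [eval_finsetSum]

theorem eval_derivative_biasPoly_eq_cc (f : (κ → Bool) → ℝ) (t : ℝ) :
    (derivative (biasPoly f)).eval t = ∑ i : κ, cc f t {i} := by
  unfold biasPoly cc
  simp only [derivative_sum, eval_finsetSum]
  rw [Finset.sum_comm]
  apply Finset.sum_congr rfl
  intro T _
  rw [derivative_C_mul_X_pow]
  simp only [eval_mul, eval_C, eval_pow, eval_X, Finset.singleton_subset_iff, Finset.card_singleton]
  rw [Finset.sum_ite_mem, Finset.univ_inter, Finset.sum_const, nsmul_eq_mul]
  ring

/-- **The differential inequality for the bias polynomial of a Boolean function.** -/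
theorem bias_diff_ineq (f : (κ → Bool) → ℝ) (hf : IsBoolean f) (d : ℕ)
    (hd : ∀ T : Finset κ, d < T.card → fhat f T = 0) (t : ℝ) (ht : |t| ≤ 1) :
    (1 - t ^ 2) * |(derivative (biasPoly f)).eval t|
      ≤ d * (1 - ((biasPoly f).eval t) ^ 2) := by
  rw [eval_derivative_biasPoly_eq_cc, eval_biasPoly_eq_cc]
  have h1t : 0 ≤ 1 - t ^ 2 := by
    have := abs_le.mp ht
    nlinarith
  have hX : ∀ S : Finset κ, 0 ≤ cc f t S * cc f t S * (1 - t ^ 2) ^ S.card := by
    intro S
    exact mul_nonneg (mul_self_nonneg _) (pow_nonneg h1t _)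
  calc (1 - t ^ 2) * |∑ i : κ, cc f t {i}|
      ≤ (1 - t ^ 2) * ∑ i : κ, |cc f t {i}| :=
        mul_le_mul_of_nonneg_left (Finset.abs_sum_le_sum_abs _ _) h1t
    _ = ∑ i : κ, (1 - t ^ 2) * |cc f t {i}| := Finset.mul_sum _ _ _
    _ ≤ ∑ i : κ, ∑ S : Finset κ,
          if i ∈ S then cc f t S * cc f t S * (1 - t ^ 2) ^ S.card else 0 :=
        Finset.sum_le_sum (fun i _ => coord_ineq f hf t ht i)
    _ = ∑ S : Finset κ, (S.card : ℝ) * (cc f t S * cc f t S * (1 - t ^ 2) ^ S.card) := by
        rw [Finset.sum_comm]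
        apply Finset.sum_congr rfl
        intro S _
        rw [Finset.sum_ite_mem, Finset.univ_inter, Finset.sum_const, nsmul_eq_mul]
    _ ≤ ∑ S : Finset κ, (d : ℝ) * (if S = ∅ then 0
          else cc f t S * cc f t S * (1 - t ^ 2) ^ S.card) := by
        apply Finset.sum_le_sum
        intro S _
        by_cases hS : S = ∅
        · subst hS; simp
        · rw [if_neg hS]
          by_cases hc : d < S.card
          · rw [cc_eq_zero f t d hd S hc]; simp
          · push_neg at hc
            apply mul_le_mul_of_nonneg_right _ (hX S)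
            exact_mod_cast hc
    _ = d * (1 - (cc f t ∅) ^ 2) := by
        rw [← Finset.mul_sum]
        congr 1
        have h2 := sum_cc_sq f hf t
        have h3 : ∑ S : Finset κ, (if S = ∅ then 0
            else cc f t S * cc f t S * (1 - t ^ 2) ^ S.card)
            = ∑ S : Finset κ, (cc f t S * cc f t S * (1 - t ^ 2) ^ S.card
                - if S = ∅ then cc f t ∅ * cc f t ∅ else 0) := by
          apply Finset.sum_congr rfl
          intro S _
          by_cases hS : S = ∅
          · subst hS; simp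
          · simp [hS]
        rw [h3, Finset.sum_sub_distrib, h2]
        simp
        ring

end

end Vale.Agent.Lib.P047
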