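import Vale.Agent.Lib.P047.Basic

namespace Vale.Agent.Lib.P047

open Finset

/-- Real-valued version of a `Bool`-valued function. -/
def re {ι : Type} (g : (ι → Bool) → Bool) : (ι → Bool) → ℝ := fun x => sgn (g x)

/-- composition of an outer function on `ι` with independent copies of an inner function on `κ` -/
def comp {ι κ : Type} (f : (ι → Bool) → ℝ) (g : (κ → Bool) → Bool) : (ι × κ → Bool) → ℝ :=
  fun x => f (fun i => g (fun k => x (i, k)))

/-- `Bool`-valued composition -/
def compB {ι κ : Type} (f : (ι → Bool) → Bool) (g : (κ → Bool) → Bool) : (ι × κ → Bool) → Bool :=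
  fun x => f (fun i => g (fun k => x (i, k)))

theorem re_compB {ι κ : Type} (f : (ι → Bool) → Bool) (g : (κ → Bool) → Bool) :
    re (compB f g) = comp (re f) g := rfl

section
variable {ι κ : Type} [Fintype ι] [DecidableEq ι] [Fintype κ] [DecidableEq κ]

/-- the fibre of `T` over `i` -/
def fib (T : Finset (ι × κ)) (i : ι) : Finset κ := Finset.univ.filter (fun k => (i, k) ∈ T)

theorem chi_prod (T : Finset (ι × κ)) (x : ι × κ → Bool) :
    chi T x = ∏ i, chi (fib T i) (fun k => x (i, k)) := by
  rw [chi_eq_prod_ite, Fintype.prod_prod_type]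
  apply Finset.prod_congr rfl
  intro i _
  rw [chi_eq_prod_ite]
  apply Finset.prod_congr rfl
  intro k _
  simp [fib]

theorem sum_curry (Φ : (ι × κ → Bool) → ℝ) :
    ∑ x : ι × κ → Bool, Φ x = ∑ X : ι → κ → Bool, Φ (fun p => X p.1 p.2) := by
  apply Fintype.sum_equiv (Equiv.curry ι κ Bool)
  intro x
  rfl

theorem fib_eq_empty_iff (T : Finset (ι × κ)) (i : ι) :
    fib T i = ∅ ↔ i ∉ T.image Prod.fst := by
  constructor
  · intro h hi
    rw [Finset.mem_image] at hi
    obtain ⟨p, hp, rfl⟩ := hi
    have : p.2 ∈ fib T p.1 := by simp [fib, hp]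
    rw [h] at this
    simp at this
  · intro h
    rw [Finset.eq_empty_iff_forall_notMem]
    intro k hk
    apply h
    rw [Finset.mem_image]
    exact ⟨(i, k), by simpa [fib] using hk, rfl⟩

theorem card_eq_sum_fib (T : Finset (ι × κ)) :
    T.card = ∑ i ∈ T.image Prod.fst, (fib T i).card := by
  rw [Finset.card_eq_sum_card_image Prod.fst T]
  apply Finset.sum_congr rfl
  intro i _
  apply Finset.card_bij (fun p _ => p.2)
  · intro p hp
    rw [Finset.mem_filter] at hp
    obtain ⟨hp1, hp2⟩ := hp
    subst hp2
    simp [fib, hp1]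
  · intro p hp q hq h
    rw [Finset.mem_filter] at hp hq
    exact Prod.ext (hp.2.trans hq.2.symm) h
  · intro k hk
    refine ⟨(i, k), ?_, rfl⟩
    simpa [fib] using hk

/-- Fourier coefficients of a composition with a balanced inner function. -/
theorem fhat_comp (f : (ι → Bool) → ℝ) (g : (κ → Bool) → Bool)
    (hg : ∑ y : κ → Bool, sgn (g y) = 0) (T : Finset (ι × κ)) :
    fhat (comp f g) T
      = fhat f (T.image Prod.fst) * ∏ i ∈ T.image Prod.fst, fhat (re g) (fib T i) := by
  set S₀ := T.image Prod.fst with hS₀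
  have hA : ∀ (S : Finset ι) (i : ι),
      ∑ y : κ → Bool, (if i ∈ S then sgn (g y) else 1) * chi (fib T i) y
        = if i ∈ S then (2 : ℝ) ^ Fintype.card κ * fhat (re g) (fib T i)
          else (if fib T i = ∅ then (2 : ℝ) ^ Fintype.card κ else 0) := by
    intro S i
    split_ifs with h1 h2
    · unfold fhat re
      field_simp
    · simp only [one_mul]
      rw [sum_chi, if_pos h2]
    · simp only [one_mul]
      rw [sum_chi, if_neg h2]
  have key : ∑ x : ι × κ → Bool, comp f g x * chi T x
      = fhat f S₀ * ((2 : ℝ) ^ (Fintype.card ι * Fintype.card κ)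
          * ∏ i ∈ S₀, fhat (re g) (fib T i)) := by
    rw [sum_curry]
    have h1 : ∀ X : ι → κ → Bool,
        comp f g (fun p => X p.1 p.2) * chi T (fun p => X p.1 p.2)
        = ∑ S : Finset ι, fhat f S *
            ∏ i, ((if i ∈ S then sgn (g (X i)) else 1) * chi (fib T i) (X i)) := by
      intro X
      rw [chi_prod]
      unfold comp
      simp only
      rw [fourier_inversion f (fun i => g (X i)), Finset.sum_mul]
      apply Finset.sum_congr rfl
      intro S _
      rw [chi_eq_prod_ite, Finset.prod_mul_distrib, mul_assoc]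
    simp_rw [h1]
    rw [Finset.sum_comm]
    simp_rw [← Finset.mul_sum]
    have h2 : ∀ S : Finset ι,
        ∑ X : ι → κ → Bool, ∏ i, ((if i ∈ S then sgn (g (X i)) else 1) * chi (fib T i) (X i))
        = ∏ i, (if i ∈ S then (2 : ℝ) ^ Fintype.card κ * fhat (re g) (fib T i)
          else (if fib T i = ∅ then (2 : ℝ) ^ Fintype.card κ else 0)) := by
      intro S
      rw [← Fintype.prod_sum (fun (i : ι) (y : κ → Bool) =>
        (if i ∈ S then sgn (g y) else 1) * chi (fib T i) y)]
      apply Finset.prod_congr rfl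
      intro i _
      exact hA S i
    simp_rw [h2]
    rw [Finset.sum_eq_single S₀]
    · congr 1
      have h3 : ∀ i : ι, (if i ∈ S₀ then (2 : ℝ) ^ Fintype.card κ * fhat (re g) (fib T i)
          else (if fib T i = ∅ then (2 : ℝ) ^ Fintype.card κ else 0))
          = (2 : ℝ) ^ Fintype.card κ * (if i ∈ S₀ then fhat (re g) (fib T i) else 1) := by
        intro i
        split_ifs with h4 h5
        · rfl
        · simp
        · exact absurd h4 ((fib_eq_empty_iff T i).not.mp h5)
      simp_rw [h3]
      rw [Finset.prod_mul_distrib, Finset.prod_const, Finset.card_univ, ← pow_mul,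
        Finset.prod_ite_mem, Finset.univ_inter, mul_comm (Fintype.card κ)]
    · intro S _ hS
      have : ∃ i, (i ∈ S ∧ i ∉ S₀) ∨ (i ∉ S ∧ i ∈ S₀) := by
        by_contra hcon
        apply hS
        ext i
        constructor
        · intro hi
          by_contra h'
          exact hcon ⟨i, Or.inl ⟨hi, h'⟩⟩
        · intro hi
          by_contra h'
          exact hcon ⟨i, Or.inr ⟨h', hi⟩⟩
      obtain ⟨i, hi⟩ := this
      apply mul_eq_zero_of_right
      apply Finset.prod_eq_zero (Finset.mem_univ i)
      rcases hi with ⟨h1, h2⟩ | ⟨h1, h2⟩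
      · rw [if_pos h1]
        have he : fib T i = ∅ := (fib_eq_empty_iff T i).mpr h2
        rw [he]
        unfold fhat re
        simp only [chi_empty, mul_one]
        rw [hg]
        simp
      · rw [if_neg h1]
        have he : fib T i ≠ ∅ := fun h => ((fib_eq_empty_iff T i).mp h) h2
        rw [if_neg he]
    · intro h
      exact absurd (Finset.mem_univ S₀) h
  unfold fhat at key ⊢
  rw [key]
  simp only [Fintype.card_prod]
  have h2 : ((2 : ℝ) ^ (Fintype.card ι * Fintype.card κ)) ≠ 0 := by positivity
  have h3 : ((2 : ℝ) ^ Fintype.card ι) ≠ 0 := by positivity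
  have h4 : ((2 : ℝ) ^ Fintype.card κ) ≠ 0 := by positivity
  field_simp

end

end Vale.Agent.Lib.P047
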