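import Vale.Agent.Lib.P047.Defs

/-!
Subcubes of the discrete cube, for problem P047.

A subcube of `{-1,1}^ι` is described by a restriction `ρ : ι → Option Bool`: the coordinate `i`
is free when `ρ i = none` and is fixed to the bit `b` when `ρ i = some b`
(recall that the bit `false` is the sign `+1` and `true` is the sign `-1`).
-/

namespace Vale.Agent.Lib.P047

/-- The point `x` lies in the subcube described by `ρ`: it agrees with `ρ` on every fixed
coordinate. -/
def InCube {ι : Type} (ρ : ι → Option Bool) (x : ι → Bool) : Prop :=
  ∀ i b, ρ i = some b → x i = b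

open Classical in
/-- The indicator function of the subcube described by `ρ`. -/
noncomputable def ind {ι : Type} (ρ : ι → Option Bool) (x : ι → Bool) : ℝ :=
  if InCube ρ x then 1 else 0

/-- The codimension of the subcube described by `ρ`: its number of fixed coordinates. -/
def codim {ι : Type} [Fintype ι] (ρ : ι → Option Bool) : ℕ :=
  (Finset.univ.filter (fun i => (ρ i).isSome = true)).card

/-- `B_d = E|X_1 + ... + X_d|` for `X` uniform on `{-1,1}^d`. -/
noncomputable def Bd (d : ℕ) : ℝ :=
  (∑ x : Fin d → Bool, |∑ i, sgn (x i)|) / 2 ^ d

end Vale.Agent.Lib.P047
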