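import Vale.Agent.Lib.P047.Cubes

namespace Vale.Agent.Lib.P047

open Finset Polynomial

section
variable {ι κ : Type} [Fintype ι] [DecidableEq ι] [Fintype κ]

theorem linSum_eq_sum (f : (ι → Bool) → ℝ) :
    linSum f = (∑ x : ι → Bool, f x * ∑ i, sgn (x i)) / 2 ^ Fintype.card ι := by
  unfold linSum fhat
  rw [← Finset.sum_div]
  congr 1
  rw [Finset.sum_comm]
  apply Finset.sum_congr rfl
  intro x _
  rw [Finset.mul_sum]
  apply Finset.sum_congr rfl
  intro i _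
  simp [chi]

/-- signed sum of the fixed coordinates of a subcube -/
noncomputable def sig (ρ : ι → Option Bool) : ℝ := (codim ρ : ℝ) - 2 * (mfix ρ : ℝ)

theorem two_pow_split (ρ : ι → Option Bool) :
    (2 : ℝ) ^ Fintype.card ι = 2 ^ codim ρ * 2 ^ nfree ρ := by
  rw [← pow_add, codim_add_nfree]

theorem linSum_cells (f : (ι → Bool) → ℝ) (ρ : κ → ι → Option Bool) (w : κ → ℝ)
    (hcover : ∀ x, ∑ k, w k * ind (ρ k) x = 1)
    (hconst : ∀ k, w k ≠ 0 → ∀ x y, InCube (ρ k) x → InCube (ρ k) y → f x = f y) :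
    linSum f = ∑ k, w k / 2 ^ codim (ρ k) * (f (basePt (ρ k)) * sig (ρ k)) := by
  rw [linSum_eq_sum, decompose f ρ w hcover hconst, Finset.sum_div]
  apply Finset.sum_congr rfl
  intro k _
  rw [cell_lin, two_pow_split (ρ k)]
  unfold sig
  field_simp

theorem weights_sum (ρ : κ → ι → Option Bool) (w : κ → ℝ)
    (hcover : ∀ x, ∑ k, w k * ind (ρ k) x = 1) :
    ∑ k, w k / 2 ^ codim (ρ k) = 1 := by
  have h := cover_functional ρ w hcover (fun _ => 1)
  simp only [card_cube_fin] at h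
  have h2 : ∑ k, w k / 2 ^ codim (ρ k)
      = (∑ k, w k * 2 ^ nfree (ρ k)) / 2 ^ Fintype.card ι := by
    rw [Finset.sum_div]
    apply Finset.sum_congr rfl
    intro k _
    rw [two_pow_split (ρ k)]
    field_simp
  rw [h2, h]
  field_simp

theorem weights_sq (ρ : κ → ι → Option Bool) (w : κ → ℝ)
    (hcover : ∀ x, ∑ k, w k * ind (ρ k) x = 1) :
    ∑ k, w k / 2 ^ codim (ρ k) * (sig (ρ k) ^ 2 - (codim (ρ k) : ℝ)) = 0 := by
  have h := cover_functional ρ w hcover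
    (fun j => ((Fintype.card ι : ℝ) - 2 * (j : ℝ)) ^ 2 - (Fintype.card ι : ℝ))
  have hR : ∑ z : Fin (Fintype.card ι) → Bool,
      (((Fintype.card ι : ℝ) - 2 * (cnt z : ℝ)) ^ 2 - (Fintype.card ι : ℝ)) = 0 := by
    rw [Finset.sum_sub_distrib]
    have h3 := cube_sum_shift2 (Fintype.card ι) 0
    simp only [zero_add] at h3
    rw [h3, Finset.sum_const, Finset.card_univ]
    simp
  have hL : ∀ k, ∑ z : Fin (nfree (ρ k)) → Bool,
      (((Fintype.card ι : ℝ) - 2 * ((cnt z + mfix (ρ k) : ℕ) : ℝ)) ^ 2 - (Fintype.card ι : ℝ))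
      = 2 ^ nfree (ρ k) * (sig (ρ k) ^ 2 - (codim (ρ k) : ℝ)) := by
    intro k
    have h5 : (Fintype.card ι : ℝ) = (codim (ρ k) : ℝ) + (nfree (ρ k) : ℝ) := by
      rw [← codim_add_nfree (ρ k)]
      push_cast
      ring
    rw [Finset.sum_sub_distrib]
    have e : ∀ z : Fin (nfree (ρ k)) → Bool,
        ((Fintype.card ι : ℝ) - 2 * ((cnt z + mfix (ρ k) : ℕ) : ℝ)) ^ 2
        = (sig (ρ k) + ((nfree (ρ k) : ℝ) - 2 * (cnt z : ℝ))) ^ 2 := by
      intro z
      unfold sig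
      rw [h5]
      push_cast
      ring
    simp_rw [e]
    rw [cube_sum_shift2, Finset.sum_const, Finset.card_univ]
    simp
    rw [h5]
    ring
  simp only [hL] at h
  rw [hR] at h
  have h2 : ∑ k, w k / 2 ^ codim (ρ k) * (sig (ρ k) ^ 2 - (codim (ρ k) : ℝ))
      = (∑ k, w k * (2 ^ nfree (ρ k) * (sig (ρ k) ^ 2 - (codim (ρ k) : ℝ))))
          / 2 ^ Fintype.card ι := by
    rw [Finset.sum_div]
    apply Finset.sum_congr rfl
    intro k _
    rw [two_pow_split (ρ k)]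
    field_simp
  rw [h2, h, zero_div]

theorem weighted_abs_le_sqrt (p σ : κ → ℝ) (hp : ∀ k, 0 ≤ p k) (h1 : ∑ k, p k = 1) :
    ∑ k, p k * |σ k| ≤ Real.sqrt (∑ k, p k * σ k ^ 2) := by
  have h : 0 ≤ ∑ k, p k * (|σ k| - ∑ k, p k * |σ k|) ^ 2 :=
    Finset.sum_nonneg (fun k _ => mul_nonneg (hp k) (sq_nonneg _))
  have e : ∑ k, p k * (|σ k| - ∑ k, p k * |σ k|) ^ 2
      = ∑ k, p k * σ k ^ 2 - (∑ k, p k * |σ k|) ^ 2 := by
    have e1 : ∀ k, p k * (|σ k| - ∑ k, p k * |σ k|) ^ 2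
        = p k * σ k ^ 2 - 2 * (∑ k, p k * |σ k|) * (p k * |σ k|)
          + (∑ k, p k * |σ k|) ^ 2 * p k := by
      intro k
      rw [sub_sq, sq_abs]
      ring
    rw [Finset.sum_congr rfl (fun k _ => e1 k)]
    rw [Finset.sum_add_distrib, Finset.sum_sub_distrib, ← Finset.mul_sum, ← Finset.mul_sum, h1]
    ring
  rw [e] at h
  have h2 : (∑ k, p k * |σ k|) ^ 2 ≤ ∑ k, p k * σ k ^ 2 := by linarith
  exact le_trans (le_abs_self _) (Real.abs_le_sqrt h2)

theorem linSum_le_abs (f : (ι → Bool) → ℝ) (hf : IsBoolean f) (ρ : κ → ι → Option Bool)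
    (w : κ → ℝ) (hw : ∀ k, 0 ≤ w k)
    (hcover : ∀ x, ∑ k, w k * ind (ρ k) x = 1)
    (hconst : ∀ k, w k ≠ 0 → ∀ x y, InCube (ρ k) x → InCube (ρ k) y → f x = f y) :
    linSum f ≤ ∑ k, w k / 2 ^ codim (ρ k) * |sig (ρ k)| := by
  rw [linSum_cells f ρ w hcover hconst]
  apply Finset.sum_le_sum
  intro k _
  apply mul_le_mul_of_nonneg_left _ (div_nonneg (hw k) (by positivity))
  rcases hf (basePt (ρ k)) with h | h
  · rw [h, one_mul]
    exact le_abs_self _
  · rw [h]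
    have := neg_abs_le (sig (ρ k))
    linarith

theorem linSum_le_sqrt (f : (ι → Bool) → ℝ) (hf : IsBoolean f) (ρ : κ → ι → Option Bool)
    (w : κ → ℝ) (hw : ∀ k, 0 ≤ w k)
    (hcover : ∀ x, ∑ k, w k * ind (ρ k) x = 1)
    (hconst : ∀ k, w k ≠ 0 → ∀ x y, InCube (ρ k) x → InCube (ρ k) y → f x = f y) :
    linSum f ≤ Real.sqrt (∑ k, w k * ((codim (ρ k) : ℝ) / 2 ^ codim (ρ k))) := by
  refine le_trans (linSum_le_abs f hf ρ w hw hcover hconst) ?_
  have h1 := weighted_abs_le_sqrt (fun k => w k / 2 ^ codim (ρ k)) (fun k => sig (ρ k))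
    (fun k => div_nonneg (hw k) (by positivity)) (weights_sum ρ w hcover)
  have h2 : ∑ k, w k / 2 ^ codim (ρ k) * sig (ρ k) ^ 2
      = ∑ k, w k * ((codim (ρ k) : ℝ) / 2 ^ codim (ρ k)) := by
    have h3 := weights_sq ρ w hcover
    have h4 : ∀ k, w k / 2 ^ codim (ρ k) * (sig (ρ k) ^ 2 - (codim (ρ k) : ℝ))
        = w k / 2 ^ codim (ρ k) * sig (ρ k) ^ 2 - w k * ((codim (ρ k) : ℝ) / 2 ^ codim (ρ k)) := by
      intro k
      ring
    rw [Finset.sum_congr rfl (fun k _ => h4 k), Finset.sum_sub_distrib] at h3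
    linarith
  rw [← h2]
  exact h1

theorem Bd_lower (ρ : κ → ι → Option Bool) (w : κ → ℝ) (hw : ∀ k, 0 ≤ w k)
    (hcover : ∀ x, ∑ k, w k * ind (ρ k) x = 1) (D : ℕ)
    (hD : ∀ k, w k ≠ 0 → codim (ρ k) ≤ D) :
    ∑ k, w k / 2 ^ codim (ρ k) * |sig (ρ k)| ≤ Bd D := by
  have h := congrArg (lam (D + 1) (fun j => |(D : ℝ) - 2 * (j : ℝ)|))
    (cover_poly_D ρ w hcover D hD)
  rw [lam_sum] at h
  have h2 : ((1 + X : ℝ[X])) ^ D = (1 + X) ^ D * X ^ 0 := by
    rw [pow_zero, mul_one]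
  rw [h2, lam_cell _ _ _ _ (by omega)] at h
  have hR : ∑ z : Fin D → Bool, |(D : ℝ) - 2 * ((cnt z + 0 : ℕ) : ℝ)| = 2 ^ D * Bd D := by
    unfold Bd
    rw [mul_div_cancel₀ _ (by positivity)]
    apply Finset.sum_congr rfl
    intro z _
    rw [add_zero, sum_sgn_fin]
  rw [hR] at h
  have hL : ∀ k, w k * (2 ^ D / 2 ^ codim (ρ k) * |sig (ρ k)|)
      ≤ lam (D + 1) (fun j => |(D : ℝ) - 2 * (j : ℝ)|)
          (C (w k) * ((1 + X) ^ (D - codim (ρ k)) * X ^ mfix (ρ k))) := by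
    intro k
    rw [lam_C_mul]
    by_cases hwk : w k = 0
    · simp [hwk]
    · have hc := hD k hwk
      have hm := mfix_le_codim (ρ k)
      rw [lam_cell _ _ _ _ (by omega)]
      apply mul_le_mul_of_nonneg_left _ (hw k)
      have h3 := cube_sum_abs (D - codim (ρ k)) (sig (ρ k))
      have e : (2 : ℝ) ^ D / 2 ^ codim (ρ k) = 2 ^ (D - codim (ρ k)) := by
        rw [eq_comm, eq_div_iff (by positivity), ← pow_add, Nat.sub_add_cancel hc]
      rw [e]
      refine le_trans h3 (le_of_eq ?_)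
      apply Finset.sum_congr rfl
      intro z _
      congr 1
      unfold sig
      rw [Nat.cast_sub hc]
      push_cast
      ring
  have h4 : ∑ k, w k / 2 ^ codim (ρ k) * |sig (ρ k)|
      = (∑ k, w k * (2 ^ D / 2 ^ codim (ρ k) * |sig (ρ k)|)) / 2 ^ D := by
    rw [Finset.sum_div]
    apply Finset.sum_congr rfl
    intro k _
    field_simp
  rw [h4, div_le_iff₀ (by positivity), mul_comm, ← h]
  exact Finset.sum_le_sum (fun k _ => hL k)

theorem degree_le_cells (f : (ι → Bool) → ℝ) (ρ : κ → ι → Option Bool) (w : κ → ℝ)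
    (hcover : ∀ x, ∑ k, w k * ind (ρ k) x = 1)
    (hconst : ∀ k, w k ≠ 0 → ∀ x y, InCube (ρ k) x → InCube (ρ k) y → f x = f y) (D : ℕ)
    (hD : ∀ k, w k ≠ 0 → codim (ρ k) ≤ D) :
    degree f ≤ D := by
  apply degree_le
  intro S hS
  by_contra hlt
  apply hS
  unfold fhat
  rw [decompose f ρ w hcover hconst (chi S)]
  have h0 : ∀ k, w k * f (basePt (ρ k)) * ∑ x : ι → Bool, ind (ρ k) x * chi S x = 0 := by
    intro k
    by_cases hwk : w k = 0
    · simp [hwk]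
    · have hc := hD k hwk
      have hcard : (Finset.univ.filter (fun i => (ρ k i).isSome = true)).card < S.card := by
        unfold codim at hc
        omega
      obtain ⟨i, hiS, hi⟩ := Finset.exists_mem_notMem_of_card_lt_card hcard
      have hnone : ρ k i = none := by
        simp only [Finset.mem_filter, Finset.mem_univ, true_and] at hi
        cases hρ : ρ k i with
        | none => rfl
        | some a => rw [hρ] at hi; simp at hi
      rw [cell_chi (ρ k) S i hiS hnone]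
      ring
  rw [Finset.sum_congr rfl (fun k _ => h0 k)]
  simp

theorem cell_card (ρ : ι → Option Bool) :
    ∑ x : ι → Bool, ind ρ x * 1 = 2 ^ nfree ρ := by
  have h3 := codim_add_nfree ρ
  have h4 := mfix_le_codim ρ
  have h1 : ∀ x : ι → Bool, ind ρ x * 1
      = lam (Fintype.card ι + 1) (fun _ => (1 : ℝ)) (C (ind ρ x) * (X : ℝ[X]) ^ cnt x) := by
    intro x
    rw [lam_C_mul, lam_X_pow _ _ _ (by have := cnt_le x; omega)]
  rw [Finset.sum_congr rfl (fun x _ => h1 x)]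
  rw [← lam_sum, sum_ind_X_pow, lam_cell _ _ _ _ (by omega)]
  exact card_cube_fin _

theorem mean_cells (f : (ι → Bool) → ℝ) (ρ : κ → ι → Option Bool) (w : κ → ℝ)
    (hcover : ∀ x, ∑ k, w k * ind (ρ k) x = 1)
    (hconst : ∀ k, w k ≠ 0 → ∀ x y, InCube (ρ k) x → InCube (ρ k) y → f x = f y) :
    fhat f ∅ = ∑ k, w k / 2 ^ codim (ρ k) * f (basePt (ρ k)) := by
  rw [mean_eq]
  have h0 : ∑ x : ι → Bool, f x = ∑ x : ι → Bool, f x * 1 := by simp
  rw [h0, decompose f ρ w hcover hconst (fun _ => 1), Finset.sum_div]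
  apply Finset.sum_congr rfl
  intro k _
  rw [cell_card, two_pow_split (ρ k)]
  field_simp

theorem weights_lin (ρ : κ → ι → Option Bool) (w : κ → ℝ)
    (hcover : ∀ x, ∑ k, w k * ind (ρ k) x = 1) :
    ∑ k, w k / 2 ^ codim (ρ k) * sig (ρ k) = 0 := by
  have h := cover_functional ρ w hcover (fun j => (Fintype.card ι : ℝ) - 2 * (j : ℝ))
  have hR : ∑ z : Fin (Fintype.card ι) → Bool, ((Fintype.card ι : ℝ) - 2 * (cnt z : ℝ)) = 0 := by
    have h3 := cube_sum_shift1 (Fintype.card ι) 0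
    simp only [zero_add, mul_zero] at h3
    exact h3
  have hL : ∀ k, ∑ z : Fin (nfree (ρ k)) → Bool,
      ((Fintype.card ι : ℝ) - 2 * ((cnt z + mfix (ρ k) : ℕ) : ℝ))
      = 2 ^ nfree (ρ k) * sig (ρ k) := by
    intro k
    have h5 : (Fintype.card ι : ℝ) = (codim (ρ k) : ℝ) + (nfree (ρ k) : ℝ) := by
      rw [← codim_add_nfree (ρ k)]
      push_cast
      ring
    rw [← cube_sum_shift1]
    apply Finset.sum_congr rfl
    intro z _
    unfold sig
    rw [h5]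
    push_cast
    ring
  simp only [hL] at h
  rw [hR] at h
  have h2 : ∑ k, w k / 2 ^ codim (ρ k) * sig (ρ k)
      = (∑ k, w k * (2 ^ nfree (ρ k) * sig (ρ k))) / 2 ^ Fintype.card ι := by
    rw [Finset.sum_div]
    apply Finset.sum_congr rfl
    intro k _
    rw [two_pow_split (ρ k)]
    field_simp
  rw [h2, h, zero_div]

theorem weighted_cs (p a b : κ → ℝ) (hp : ∀ k, 0 ≤ p k) :
    (∑ k, p k * (a k * b k)) ^ 2 ≤ (∑ k, p k * a k ^ 2) * ∑ k, p k * b k ^ 2 := by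
  have h := Finset.sum_mul_sq_le_sq_mul_sq (Finset.univ : Finset κ)
    (fun k => Real.sqrt (p k) * a k) (fun k => Real.sqrt (p k) * b k)
  have e1 : ∀ k, Real.sqrt (p k) * a k * (Real.sqrt (p k) * b k) = p k * (a k * b k) := by
    intro k
    have := Real.mul_self_sqrt (hp k)
    calc Real.sqrt (p k) * a k * (Real.sqrt (p k) * b k)
        = (Real.sqrt (p k) * Real.sqrt (p k)) * (a k * b k) := by ring
      _ = p k * (a k * b k) := by rw [this]
  have e2 : ∀ c : κ → ℝ, ∀ k, (Real.sqrt (p k) * c k) ^ 2 = p k * c k ^ 2 := by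
    intro c k
    rw [mul_pow, Real.sq_sqrt (hp k)]
  simp only [e1, e2] at h
  exact h

theorem linSum_le_sqrt_var (f : (ι → Bool) → ℝ) (hf : IsBoolean f) (ρ : κ → ι → Option Bool)
    (w : κ → ℝ) (hw : ∀ k, 0 ≤ w k)
    (hcover : ∀ x, ∑ k, w k * ind (ρ k) x = 1)
    (hconst : ∀ k, w k ≠ 0 → ∀ x y, InCube (ρ k) x → InCube (ρ k) y → f x = f y) :
    linSum f ≤ Real.sqrt ((1 - fhat f ∅ ^ 2)
      * ∑ k, w k * ((codim (ρ k) : ℝ) / 2 ^ codim (ρ k))) := by
  have hp : ∀ k, 0 ≤ w k / 2 ^ codim (ρ k) := fun k => div_nonneg (hw k) (by positivity)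
  have hsum := weights_sum ρ w hcover
  have hlin := weights_lin ρ w hcover
  have hmean := mean_cells f ρ w hcover hconst
  have hs : linSum f = ∑ k, w k / 2 ^ codim (ρ k)
      * ((f (basePt (ρ k)) - fhat f ∅) * sig (ρ k)) := by
    rw [linSum_cells f ρ w hcover hconst]
    have e : ∀ k, w k / 2 ^ codim (ρ k) * ((f (basePt (ρ k)) - fhat f ∅) * sig (ρ k))
        = w k / 2 ^ codim (ρ k) * (f (basePt (ρ k)) * sig (ρ k))
          - fhat f ∅ * (w k / 2 ^ codim (ρ k) * sig (ρ k)) := by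
      intro k
      ring
    rw [Finset.sum_congr rfl (fun k _ => e k), Finset.sum_sub_distrib, ← Finset.mul_sum, hlin]
    ring
  have hcs := weighted_cs (fun k => w k / 2 ^ codim (ρ k))
    (fun k => f (basePt (ρ k)) - fhat f ∅) (fun k => sig (ρ k)) hp
  have hA : ∑ k, w k / 2 ^ codim (ρ k) * (f (basePt (ρ k)) - fhat f ∅) ^ 2
      = 1 - fhat f ∅ ^ 2 := by
    have e : ∀ k, w k / 2 ^ codim (ρ k) * (f (basePt (ρ k)) - fhat f ∅) ^ 2
        = w k / 2 ^ codim (ρ k) - 2 * fhat f ∅ * (w k / 2 ^ codim (ρ k) * f (basePt (ρ k)))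
          + fhat f ∅ ^ 2 * (w k / 2 ^ codim (ρ k)) := by
      intro k
      have h2 : f (basePt (ρ k)) ^ 2 = 1 := by
        rcases hf (basePt (ρ k)) with h | h <;> rw [h] <;> norm_num
      calc w k / 2 ^ codim (ρ k) * (f (basePt (ρ k)) - fhat f ∅) ^ 2
          = w k / 2 ^ codim (ρ k) * f (basePt (ρ k)) ^ 2
            - 2 * fhat f ∅ * (w k / 2 ^ codim (ρ k) * f (basePt (ρ k)))
            + fhat f ∅ ^ 2 * (w k / 2 ^ codim (ρ k)) := by ring
        _ = _ := by rw [h2, mul_one]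
    rw [Finset.sum_congr rfl (fun k _ => e k), Finset.sum_add_distrib, Finset.sum_sub_distrib,
      ← Finset.mul_sum, ← Finset.mul_sum, hsum, ← hmean]
    ring
  have hB : ∑ k, w k / 2 ^ codim (ρ k) * sig (ρ k) ^ 2
      = ∑ k, w k * ((codim (ρ k) : ℝ) / 2 ^ codim (ρ k)) := by
    have h3 := weights_sq ρ w hcover
    have h4 : ∀ k, w k / 2 ^ codim (ρ k) * (sig (ρ k) ^ 2 - (codim (ρ k) : ℝ))
        = w k / 2 ^ codim (ρ k) * sig (ρ k) ^ 2 - w k * ((codim (ρ k) : ℝ) / 2 ^ codim (ρ k)) := by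
      intro k
      ring
    rw [Finset.sum_congr rfl (fun k _ => h4 k), Finset.sum_sub_distrib] at h3
    linarith
  rw [hA, hB, ← hs] at hcs
  exact le_trans (le_abs_self _) (Real.abs_le_sqrt hcs)

end

end Vale.Agent.Lib.P047
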