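import Vale.Agent.Lib.P047.Comp2
import Vale.Agent.Lib.P047.CubeDefs

namespace Vale.Agent.Lib.P047

open Finset Polynomial

/-- number of coordinates equal to `true` (sign `-1`) -/
def cnt {α : Type} [Fintype α] (z : α → Bool) : ℕ := (Finset.univ.filter (fun i => z i = true)).card

/-- number of coordinates fixed to `true` -/
def mfix {α : Type} [Fintype α] (ρ : α → Option Bool) : ℕ :=
  (Finset.univ.filter (fun i => ρ i = some true)).card

/-- number of free coordinates -/
def nfree {α : Type} [Fintype α] (ρ : α → Option Bool) : ℕ :=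
  (Finset.univ.filter (fun i => ρ i = none)).card

/-- coordinate factor of the indicator of a subcube -/
def cellF (o : Option Bool) (b : Bool) : ℝ :=
  match o with
  | none => 1
  | some a => if b = a then 1 else 0

section
variable {α : Type} [Fintype α]

theorem cnt_le (z : α → Bool) : cnt z ≤ Fintype.card α := by
  unfold cnt
  exact Finset.card_le_univ _

theorem mfix_le_codim (ρ : α → Option Bool) : mfix ρ ≤ codim ρ := by
  unfold mfix codim
  apply Finset.card_le_card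
  intro i hi
  simp only [Finset.mem_filter, Finset.mem_univ, true_and] at hi ⊢
  rw [hi]
  rfl

theorem codim_add_nfree (ρ : α → Option Bool) : codim ρ + nfree ρ = Fintype.card α := by
  unfold codim nfree
  rw [← Finset.card_univ (α := α)]
  have h : (Finset.univ.filter (fun i => ρ i = none))
      = Finset.univ.filter (fun i => ¬ ((ρ i).isSome = true)) := by
    apply Finset.filter_congr
    intro i _
    cases ρ i <;> simp
  rw [h]
  exact Finset.card_filter_add_card_filter_not (s := (Finset.univ : Finset α))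
    (fun i => (ρ i).isSome = true)

theorem ind_eq_prod (ρ : α → Option Bool) (x : α → Bool) :
    ind ρ x = ∏ i, cellF (ρ i) (x i) := by
  classical
  unfold ind
  by_cases h : InCube ρ x
  · rw [if_pos h]
    symm
    apply Finset.prod_eq_one
    intro i _
    unfold cellF
    cases hρ : ρ i with
    | none => rfl
    | some a => simp [h i a hρ]
  · rw [if_neg h]
    symm
    unfold InCube at h
    push_neg at h
    obtain ⟨i, b, hb, hne⟩ := h
    apply Finset.prod_eq_zero (Finset.mem_univ i)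
    unfold cellF
    rw [hb]
    simp [hne]

theorem ind_nonneg (ρ : α → Option Bool) (x : α → Bool) : 0 ≤ ind ρ x := by
  classical
  unfold ind
  split_ifs <;> norm_num

theorem ind_eq_one_or_zero (ρ : α → Option Bool) (x : α → Bool) :
    (InCube ρ x ∧ ind ρ x = 1) ∨ (¬ InCube ρ x ∧ ind ρ x = 0) := by
  classical
  unfold ind
  by_cases h : InCube ρ x
  · left; exact ⟨h, if_pos h⟩
  · right; exact ⟨h, if_neg h⟩

/-- a point of the subcube -/
def basePt (ρ : α → Option Bool) : α → Bool := fun i => (ρ i).getD false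

theorem basePt_mem (ρ : α → Option Bool) : InCube ρ (basePt ρ) := by
  intro i b hb
  unfold basePt
  rw [hb]
  rfl

theorem X_pow_cnt (z : α → Bool) :
    (X : ℝ[X]) ^ cnt z = ∏ i, (if z i = true then (X : ℝ[X]) else 1) := by
  unfold cnt
  rw [Finset.prod_ite, Finset.prod_const, Finset.prod_const_one, mul_one]

theorem sum_X_pow_cnt [DecidableEq α] :
    ∑ z : α → Bool, (X : ℝ[X]) ^ cnt z = (1 + X) ^ Fintype.card α := by
  simp_rw [X_pow_cnt]
  rw [← Fintype.prod_sum (fun (_ : α) (b : Bool) => if b = true then (X : ℝ[X]) else 1)]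
  simp [Finset.prod_const, add_comm]

theorem sum_ind_X_pow [DecidableEq α] (ρ : α → Option Bool) :
    ∑ x : α → Bool, C (ind ρ x) * (X : ℝ[X]) ^ cnt x = (1 + X) ^ nfree ρ * X ^ mfix ρ := by
  have h1 : ∀ x : α → Bool, C (ind ρ x) * (X : ℝ[X]) ^ cnt x
      = ∏ i, (C (cellF (ρ i) (x i)) * (if x i = true then (X : ℝ[X]) else 1)) := by
    intro x
    rw [Finset.prod_mul_distrib, ← X_pow_cnt, ind_eq_prod, map_prod]
  simp_rw [h1]
  rw [← Fintype.prod_sum (fun (i : α) (b : Bool) =>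
    C (cellF (ρ i) b) * (if b = true then (X : ℝ[X]) else 1))]
  have h2 : ∀ i : α, ∑ b : Bool, C (cellF (ρ i) b) * (if b = true then (X : ℝ[X]) else 1)
      = (if ρ i = none then (1 + X : ℝ[X]) else 1) * (if ρ i = some true then (X : ℝ[X]) else 1) := by
    intro i
    rw [Fintype.sum_bool]
    cases hρ : ρ i with
    | none => simp [cellF, add_comm]
    | some a => cases a <;> simp [cellF]
  simp_rw [h2]
  rw [Finset.prod_mul_distrib]
  unfold nfree mfix
  rw [Finset.prod_ite, Finset.prod_const, Finset.prod_const_one, mul_one]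
  rw [Finset.prod_ite, Finset.prod_const, Finset.prod_const_one, mul_one]

end

/-- a linear functional on polynomials: `p ↦ ∑_{j < N} p_j g(j)` -/
noncomputable def lam (N : ℕ) (g : ℕ → ℝ) (p : ℝ[X]) : ℝ :=
  ∑ j ∈ Finset.range N, p.coeff j * g j

theorem lam_sum {β : Type} (N : ℕ) (g : ℕ → ℝ) (s : Finset β) (p : β → ℝ[X]) :
    lam N g (∑ k ∈ s, p k) = ∑ k ∈ s, lam N g (p k) := by
  unfold lam
  simp_rw [Polynomial.finsetSum_coeff, Finset.sum_mul]
  rw [Finset.sum_comm]

theorem lam_C_mul (N : ℕ) (g : ℕ → ℝ) (a : ℝ) (p : ℝ[X]) :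
    lam N g (C a * p) = a * lam N g p := by
  unfold lam
  simp_rw [Polynomial.coeff_C_mul, Finset.mul_sum, mul_assoc]

theorem lam_X_pow (N : ℕ) (g : ℕ → ℝ) (e : ℕ) (he : e < N) :
    lam N g ((X : ℝ[X]) ^ e) = g e := by
  unfold lam
  simp_rw [Polynomial.coeff_X_pow]
  rw [Finset.sum_eq_single e]
  · simp
  · intro j _ hj
    simp [hj]
  · intro h
    exact absurd (Finset.mem_range.mpr he) h

theorem lam_cell (N : ℕ) (g : ℕ → ℝ) (M m : ℕ) (h : M + m < N) :
    lam N g ((1 + X) ^ M * X ^ m) = ∑ z : Fin M → Bool, g (cnt z + m) := by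
  have h1 : ((1 + X : ℝ[X])) ^ M = ∑ z : Fin M → Bool, (X : ℝ[X]) ^ cnt z := by
    rw [sum_X_pow_cnt, Fintype.card_fin]
  rw [h1, Finset.sum_mul, lam_sum]
  apply Finset.sum_congr rfl
  intro z _
  rw [← pow_add]
  apply lam_X_pow
  have := cnt_le z
  rw [Fintype.card_fin] at this
  omega

section
variable {α : Type} [Fintype α] [DecidableEq α]

theorem sum_sgn_eq (z : α → Bool) :
    ∑ i, sgn (z i) = (Fintype.card α : ℝ) - 2 * (cnt z : ℝ) := by
  have h : ∀ i, sgn (z i) = 1 - 2 * (if z i = true then (1 : ℝ) else 0) := by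
    intro i
    cases z i <;> simp [sgn] <;> norm_num
  simp_rw [h]
  rw [Finset.sum_sub_distrib, ← Finset.mul_sum, Finset.sum_boole]
  simp [cnt]

theorem sum_cube_sgn (i : α) : ∑ z : α → Bool, sgn (z i) = 0 := by
  have h := sum_chi ({i} : Finset α)
  simp [chi] at h
  exact h

theorem sum_cube_sgn_mul (i j : α) :
    ∑ z : α → Bool, sgn (z i) * sgn (z j) = if i = j then (2 : ℝ) ^ Fintype.card α else 0 := by
  split_ifs with h
  · subst h
    simp [sgn_mul_self]
  · have h2 := sum_chi ({i, j} : Finset α)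
    simp [chi, Finset.prod_pair h] at h2
    exact h2

theorem sum_cube_lin : ∑ z : α → Bool, ∑ i, sgn (z i) = 0 := by
  rw [Finset.sum_comm]
  apply Finset.sum_eq_zero
  intro i _
  exact sum_cube_sgn i

theorem sum_cube_sq :
    ∑ z : α → Bool, (∑ i, sgn (z i)) ^ 2 = (Fintype.card α : ℝ) * 2 ^ Fintype.card α := by
  have h : ∀ z : α → Bool, (∑ i, sgn (z i)) ^ 2 = ∑ i, ∑ j, sgn (z i) * sgn (z j) := by
    intro z
    rw [sq, Finset.sum_mul_sum]
  simp_rw [h]
  rw [Finset.sum_comm]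
  have h2 : ∀ i : α, ∑ z : α → Bool, ∑ j, sgn (z i) * sgn (z j) = 2 ^ Fintype.card α := by
    intro i
    rw [Finset.sum_comm]
    simp_rw [sum_cube_sgn_mul]
    simp
  simp_rw [h2]
  simp

end

theorem card_cube_fin (M : ℕ) : ∑ _z : Fin M → Bool, (1 : ℝ) = 2 ^ M := by
  simp

theorem sum_sgn_fin (M : ℕ) (z : Fin M → Bool) :
    (M : ℝ) - 2 * (cnt z : ℝ) = ∑ i, sgn (z i) := by
  rw [sum_sgn_eq, Fintype.card_fin]

theorem cube_sum_shift1 (M : ℕ) (a : ℝ) :
    ∑ z : Fin M → Bool, (a + ((M : ℝ) - 2 * (cnt z : ℝ))) = 2 ^ M * a := by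
  simp_rw [sum_sgn_fin]
  rw [Finset.sum_add_distrib, sum_cube_lin, add_zero]
  simp

theorem cube_sum_shift2 (M : ℕ) (a : ℝ) :
    ∑ z : Fin M → Bool, (a + ((M : ℝ) - 2 * (cnt z : ℝ))) ^ 2 = 2 ^ M * (a ^ 2 + M) := by
  simp_rw [sum_sgn_fin]
  have h : ∀ z : Fin M → Bool, (a + ∑ i, sgn (z i)) ^ 2
      = a ^ 2 + 2 * a * (∑ i, sgn (z i)) + (∑ i, sgn (z i)) ^ 2 := by
    intro z
    ring
  simp_rw [h]
  rw [Finset.sum_add_distrib, Finset.sum_add_distrib, ← Finset.mul_sum, sum_cube_lin, sum_cube_sq]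
  simp
  ring

theorem cube_sum_abs (M : ℕ) (a : ℝ) :
    2 ^ M * |a| ≤ ∑ z : Fin M → Bool, |a + ((M : ℝ) - 2 * (cnt z : ℝ))| := by
  have h1 : |∑ z : Fin M → Bool, (a + ((M : ℝ) - 2 * (cnt z : ℝ)))|
      ≤ ∑ z : Fin M → Bool, |a + ((M : ℝ) - 2 * (cnt z : ℝ))| :=
    Finset.abs_sum_le_sum_abs _ _
  rw [cube_sum_shift1, abs_mul, abs_of_pos (by positivity : (0 : ℝ) < 2 ^ M)] at h1
  exact h1

section
variable {ι κ : Type} [Fintype ι] [DecidableEq ι] [Fintype κ]

theorem cover_poly (ρ : κ → ι → Option Bool) (w : κ → ℝ)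
    (hcover : ∀ x, ∑ k, w k * ind (ρ k) x = 1) :
    ∑ k, C (w k) * ((1 + X) ^ nfree (ρ k) * X ^ mfix (ρ k))
      = ((1 + X : ℝ[X])) ^ Fintype.card ι := by
  rw [← sum_X_pow_cnt]
  simp_rw [← sum_ind_X_pow, Finset.mul_sum]
  rw [Finset.sum_comm]
  apply Finset.sum_congr rfl
  intro x _
  have h : ∀ k, C (w k) * (C (ind (ρ k) x) * (X : ℝ[X]) ^ cnt x)
      = C (w k * ind (ρ k) x) * (X : ℝ[X]) ^ cnt x := by
    intro k
    rw [map_mul, mul_assoc]
  simp_rw [h]
  rw [← Finset.sum_mul, ← map_sum, hcover x, map_one, one_mul]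

theorem one_add_X_ne_zero : (1 + X : ℝ[X]) ≠ 0 := by
  intro h
  have h2 := congrArg (Polynomial.eval 0) h
  simp at h2

theorem cover_poly_D (ρ : κ → ι → Option Bool) (w : κ → ℝ)
    (hcover : ∀ x, ∑ k, w k * ind (ρ k) x = 1) (D : ℕ)
    (hD : ∀ k, w k ≠ 0 → codim (ρ k) ≤ D) :
    ∑ k, C (w k) * ((1 + X) ^ (D - codim (ρ k)) * X ^ mfix (ρ k))
      = ((1 + X : ℝ[X])) ^ D := by
  apply mul_left_cancel₀ (pow_ne_zero (Fintype.card ι) one_add_X_ne_zero)
  have hE := cover_poly ρ w hcover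
  calc ((1 + X : ℝ[X])) ^ Fintype.card ι
        * ∑ k, C (w k) * ((1 + X) ^ (D - codim (ρ k)) * X ^ mfix (ρ k))
      = ∑ k, (1 + X) ^ D * (C (w k) * ((1 + X) ^ nfree (ρ k) * X ^ mfix (ρ k))) := by
        rw [Finset.mul_sum]
        apply Finset.sum_congr rfl
        intro k _
        by_cases hw : w k = 0
        · simp [hw]
        · have hc := hD k hw
          have hn := codim_add_nfree (ρ k)
          have e1 : ((1 + X : ℝ[X])) ^ Fintype.card ι
              = (1 + X) ^ codim (ρ k) * (1 + X) ^ nfree (ρ k) := by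
            rw [← pow_add, hn]
          have e2 : ((1 + X : ℝ[X])) ^ D
              = (1 + X) ^ (D - codim (ρ k)) * (1 + X) ^ codim (ρ k) := by
            rw [← pow_add, Nat.sub_add_cancel hc]
          rw [e1, e2]
          ring
    _ = (1 + X) ^ D * (1 + X) ^ Fintype.card ι := by rw [← Finset.mul_sum, hE]
    _ = (1 + X) ^ Fintype.card ι * (1 + X) ^ D := mul_comm _ _

/-- the cover identity, tested against an arbitrary function of the number of minus signs -/
theorem cover_functional (ρ : κ → ι → Option Bool) (w : κ → ℝ)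
    (hcover : ∀ x, ∑ k, w k * ind (ρ k) x = 1) (g : ℕ → ℝ) :
    ∑ k, w k * ∑ z : Fin (nfree (ρ k)) → Bool, g (cnt z + mfix (ρ k))
      = ∑ z : Fin (Fintype.card ι) → Bool, g (cnt z) := by
  have h := congrArg (lam (Fintype.card ι + 1) g) (cover_poly ρ w hcover)
  rw [lam_sum] at h
  have h2 : ((1 + X : ℝ[X])) ^ Fintype.card ι = (1 + X) ^ Fintype.card ι * X ^ 0 := by
    rw [pow_zero, mul_one]
  rw [h2, lam_cell _ _ _ _ (by omega)] at h
  simp only [add_zero] at h
  rw [← h]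
  apply Finset.sum_congr rfl
  intro k _
  rw [lam_C_mul, lam_cell]
  have h3 := codim_add_nfree (ρ k)
  have h4 := mfix_le_codim (ρ k)
  omega

theorem cell_lin (ρ : ι → Option Bool) :
    ∑ x : ι → Bool, ind ρ x * ∑ i, sgn (x i)
      = 2 ^ nfree ρ * ((codim ρ : ℝ) - 2 * (mfix ρ : ℝ)) := by
  have h3 := codim_add_nfree ρ
  have h4 := mfix_le_codim ρ
  have h1 : ∀ x : ι → Bool, ind ρ x * ∑ i, sgn (x i)
      = lam (Fintype.card ι + 1) (fun j => (Fintype.card ι : ℝ) - 2 * (j : ℝ))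
          (C (ind ρ x) * (X : ℝ[X]) ^ cnt x) := by
    intro x
    rw [lam_C_mul, lam_X_pow _ _ _ (by have := cnt_le x; omega), sum_sgn_eq]
  simp_rw [h1]
  rw [← lam_sum, sum_ind_X_pow, lam_cell _ _ _ _ (by omega)]
  rw [← cube_sum_shift1]
  apply Finset.sum_congr rfl
  intro z _
  have h5 : (Fintype.card ι : ℝ) = (codim ρ : ℝ) + (nfree ρ : ℝ) := by
    rw [← h3]
    push_cast
    ring
  rw [h5]
  push_cast
  ring

theorem cell_chi (ρ : ι → Option Bool) (S : Finset ι) (i : ι) (hi : i ∈ S) (hρ : ρ i = none) :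
    ∑ x : ι → Bool, ind ρ x * chi S x = 0 := by
  have h1 : ∀ x : ι → Bool, ind ρ x * chi S x
      = ∏ j, (cellF (ρ j) (x j) * (if j ∈ S then sgn (x j) else 1)) := by
    intro x
    rw [Finset.prod_mul_distrib, ← chi_eq_prod_ite, ind_eq_prod]
  simp_rw [h1]
  rw [sum_prod_coord (fun j b => cellF (ρ j) b * (if j ∈ S then sgn b else 1))]
  apply Finset.prod_eq_zero (Finset.mem_univ i)
  simp [hρ, hi, cellF, sgn]

/-- decomposition of a sum against `f` along the cells -/
theorem decompose (f : (ι → Bool) → ℝ) (ρ : κ → ι → Option Bool) (w : κ → ℝ)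
    (hcover : ∀ x, ∑ k, w k * ind (ρ k) x = 1)
    (hconst : ∀ k, w k ≠ 0 → ∀ x y, InCube (ρ k) x → InCube (ρ k) y → f x = f y)
    (G : (ι → Bool) → ℝ) :
    ∑ x : ι → Bool, f x * G x
      = ∑ k, w k * f (basePt (ρ k)) * ∑ x : ι → Bool, ind (ρ k) x * G x := by
  have h1 : ∀ x : ι → Bool, f x * G x = ∑ k, w k * ind (ρ k) x * (f x * G x) := by
    intro x
    rw [← Finset.sum_mul, hcover x, one_mul]
  rw [Finset.sum_congr rfl (fun x _ => h1 x)]
  rw [Finset.sum_comm]
  apply Finset.sum_congr rfl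
  intro k _
  rw [Finset.mul_sum]
  apply Finset.sum_congr rfl
  intro x _
  by_cases hw : w k = 0
  · simp [hw]
  · rcases ind_eq_one_or_zero (ρ k) x with ⟨hin, h⟩ | ⟨_, h⟩
    · rw [hconst k hw x (basePt (ρ k)) hin (basePt_mem (ρ k))]
      ring
    · rw [h]
      ring

end

end Vale.Agent.Lib.P047
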