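import Mathlib

/-!
Fourier analysis on the discrete cube, following the conventions of problem P047.

A point of the cube `{-1,1}^ι` is encoded as `x : ι → Bool`, the coordinate `x i` having the
sign `sgn (x i)` (`false` is `+1`, `true` is `-1`).  Functions on the cube are `(ι → Bool) → ℝ`.
-/

namespace Vale.Agent.Lib.P047

open Finset

/-- The sign encoded by a bit: `false ↦ 1`, `true ↦ -1`. -/
def sgn (b : Bool) : ℝ := if b then -1 else 1

/-- The character `χ_S(x) = ∏_{i ∈ S} x_i`. -/
def chi {ι : Type} (S : Finset ι) (x : ι → Bool) : ℝ := ∏ i ∈ S, sgn (x i)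

/-- The Fourier coefficient `f̂(S) = E[f(X) ∏_{i ∈ S} X_i]`, `X` uniform on the cube. -/
noncomputable def fhat {ι : Type} [Fintype ι] [DecidableEq ι] (f : (ι → Bool) → ℝ) (S : Finset ι) : ℝ :=
  (∑ x : ι → Bool, f x * chi S x) / 2 ^ Fintype.card ι

/-- The degree `deg f = max {|S| : f̂(S) ≠ 0}` (and `0` if all coefficients vanish). -/
noncomputable def degree {ι : Type} [Fintype ι] [DecidableEq ι] (f : (ι → Bool) → ℝ) : ℕ :=
  (Finset.univ.filter (fun S : Finset ι => fhat f S ≠ 0)).sup Finset.card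

/-- The sum of the linear (level one) Fourier coefficients `∑_i f̂({i})`. -/
noncomputable def linSum {ι : Type} [Fintype ι] [DecidableEq ι] (f : (ι → Bool) → ℝ) : ℝ :=
  ∑ i : ι, fhat f {i}

/-- `f` is Boolean: it takes values in `{-1, 1}`. -/
def IsBoolean {ι : Type} (f : (ι → Bool) → ℝ) : Prop := ∀ x, f x = 1 ∨ f x = -1

end Vale.Agent.Lib.P047
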