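import Vale.Agent.Lib.P047.Main

namespace Vale.Agent.Lib.P047

open Finset

section
variable {ι : Type} [Fintype ι] [DecidableEq ι]

/-- a sign making `sgn c * μ = |μ|` -/
theorem exists_sign (μ : ℝ) : ∃ c : Bool, sgn c * μ = |μ| := by
  by_cases h : 0 ≤ μ
  · exact ⟨false, by rw [sgn_false, one_mul, abs_of_nonneg h]⟩
  · exact ⟨true, by rw [sgn_true, abs_of_neg (lt_of_not_ge h)]; ring⟩

/-- the balanced odd extension of a Boolean function, with its parameters -/
theorem exists_oddify (f : (ι → Bool) → ℝ) (hf : IsBoolean f) :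
    ∃ O : (Option ι → Bool) → Bool, (∑ y : Option ι → Bool, sgn (O y) = 0)
      ∧ linSum (re O) = linSum f + |fhat f ∅|
      ∧ degree (re O) ≤ degree f + 1
      ∧ (Odd (degree f) → degree (re O) ≤ degree f) := by
  obtain ⟨g, rfl⟩ := exists_re f hf
  obtain ⟨c, hc⟩ := exists_sign (fhat (re g) ∅)
  refine ⟨oddifyB c g, ?_, ?_, ?_, ?_⟩
  · have h1 : fhat (re (oddifyB c g)) ∅ = 0 := by
      rw [re_oddifyB]
      exact mean_oddify c (re g)
    exact sum_eq_zero_of_mean (re (oddifyB c g)) h1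
  · rw [re_oddifyB, linSum_oddify, hc]
  · rw [re_oddifyB]
    exact degree_oddify_le c (re g)
  · intro hodd
    rw [re_oddifyB]
    exact degree_oddify_le_of_odd c (re g) hodd

end

/-- Under the weak form (with any constant), the strong form holds in the following shapes. -/
theorem weak_imp_strong (C : ℝ)
    (H : ∀ (n : ℕ) (f : (Fin n → Bool) → ℝ), IsBoolean f →
      linSum f ≤ C * Real.sqrt (degree f))
    (n : ℕ) (f : (Fin n → Bool) → ℝ) (hf : IsBoolean f) :
    linSum f + |fhat f ∅| ≤ Real.sqrt ((degree f : ℝ) + 1)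
      ∧ (Odd (degree f) → linSum f + |fhat f ∅| ≤ Real.sqrt (degree f))
      ∧ (fhat f ∅ = 0 → linSum f ≤ Real.sqrt (degree f)) := by
  obtain ⟨O, hO, hs, hd, hd'⟩ := exists_oddify f hf
  have hcore := core C H O hO
  rw [hs] at hcore
  refine ⟨?_, ?_, ?_⟩
  · refine le_trans hcore (Real.sqrt_le_sqrt ?_)
    exact_mod_cast hd
  · intro hodd
    refine le_trans hcore (Real.sqrt_le_sqrt ?_)
    exact_mod_cast hd' hodd
  · intro hmean
    obtain ⟨g, rfl⟩ := exists_re f hf
    exact core C H g (sum_eq_zero_of_mean (re g) hmean)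

end Vale.Agent.Lib.P047
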