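import Vale.Agent.Lib.P047.Final

namespace Vale.Agent.Lib.P047

open Finset

section
variable {ι : Type} [Fintype ι] [DecidableEq ι]

theorem linSum_eq_zero_of_degree_eq_zero (f : (ι → Bool) → ℝ) (h : degree f = 0) :
    linSum f = 0 := by
  unfold linSum
  apply Finset.sum_eq_zero
  intro i _
  by_contra hne
  have := card_le_degree f {i} hne
  rw [h] at this
  simp at this

end

/-- an exponent gap for a number exceeding the square root of a positive integer -/
theorem exists_gap (s : ℝ) (d : ℕ) (hd : 1 ≤ d) (hs : Real.sqrt d < s) :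
    ∃ ε : ℝ, 0 < ε ∧ (d : ℝ) ^ (1 / 2 + ε) ≤ s := by
  have hs1 : 1 < s := by
    have h1 : (1 : ℝ) ≤ Real.sqrt d := by
      rw [Real.le_sqrt (by norm_num) (Nat.cast_nonneg d)]
      simp
      exact_mod_cast hd
    linarith
  rcases Nat.lt_or_ge 1 d with h2 | h2
  · have hd1 : (1 : ℝ) < d := by exact_mod_cast h2
    refine ⟨Real.logb d s - 1 / 2, ?_, ?_⟩
    · have : (1 / 2 : ℝ) < Real.logb d s := by
        rw [Real.lt_logb_iff_rpow_lt hd1 (by linarith)]
        rw [← Real.sqrt_eq_rpow]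
        exact hs
      linarith
    · have : (1 / 2 : ℝ) + (Real.logb d s - 1 / 2) = Real.logb d s := by ring
      rw [this, Real.rpow_logb (by linarith) (by linarith) (by linarith)]
  · have hd1 : d = 1 := le_antisymm h2 hd
    subst hd1
    refine ⟨1, one_pos, ?_⟩
    simp
    exact hs1.le

/-- A balanced Boolean function beating the square root of its degree gives, by iterated
composition, Boolean functions with arbitrarily large linear sum at least `deg ^ (1/2 + ε)`. -/
theorem gap_of_balanced {ι : Type} [Fintype ι] [DecidableEq ι] (F : (ι → Bool) → Bool)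
    (hF : ∑ y : ι → Bool, sgn (F y) = 0)
    (hs : Real.sqrt (degree (re F)) < linSum (re F)) :
    ∃ ε : ℝ, 0 < ε ∧ ∀ K : ℝ, ∃ (n : ℕ) (f : (Fin n → Bool) → ℝ), IsBoolean f ∧
      K ≤ linSum f ∧ (degree f : ℝ) ^ (1 / 2 + ε) ≤ linSum f := by
  have hd : 1 ≤ degree (re F) := by
    by_contra h0
    have h0' : degree (re F) = 0 := by omega
    rw [linSum_eq_zero_of_degree_eq_zero (re F) h0', h0'] at hs
    simp at hs
  obtain ⟨ε, hε, hgap⟩ := exists_gap (linSum (re F)) (degree (re F)) hd hs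
  have hs1 : 1 < linSum (re F) := by
    have h1 : (1 : ℝ) ≤ Real.sqrt (degree (re F)) := by
      rw [Real.le_sqrt (by norm_num) (Nat.cast_nonneg _)]
      simp
      exact_mod_cast hd
    linarith
  refine ⟨ε, hε, ?_⟩
  intro K
  obtain ⟨k, hk⟩ := pow_unbounded_of_one_lt K hs1
  obtain ⟨κ, i1, i2, G, hG, hsG, hdG⟩ := iterate F hF k
  refine ⟨Fintype.card κ, reindex (Fintype.equivFin κ) (re G), fun x => isBoolean_re G _, ?_, ?_⟩
  · rw [linSum_reindex, hsG]
    have : linSum (re F) ^ k ≤ linSum (re F) ^ (k + 1) :=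
      pow_le_pow_right₀ hs1.le (Nat.le_succ k)
    linarith
  · rw [linSum_reindex, degree_reindex, hsG]
    have hexp : (0 : ℝ) ≤ 1 / 2 + ε := by linarith
    have hd0 : (0 : ℝ) ≤ (degree (re F) : ℝ) := Nat.cast_nonneg _
    calc (degree (re G) : ℝ) ^ (1 / 2 + ε)
        ≤ ((degree (re F) : ℝ) ^ (k + 1)) ^ (1 / 2 + ε) := by
          apply Real.rpow_le_rpow (Nat.cast_nonneg _) _ hexp
          exact_mod_cast hdG
      _ = ((degree (re F) : ℝ) ^ (1 / 2 + ε)) ^ (k + 1) := by
          rw [← Real.rpow_natCast, ← Real.rpow_mul hd0, mul_comm, Real.rpow_mul hd0,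
            Real.rpow_natCast]
      _ ≤ linSum (re F) ^ (k + 1) :=
          pow_le_pow_left₀ (Real.rpow_nonneg hd0 _) hgap _

/-- The power-gap dichotomy, in contrapositive form for one function. -/
theorem gap_of_violation (n : ℕ) (f : (Fin n → Bool) → ℝ) (hf : IsBoolean f)
    (hv : ¬ (linSum f + |fhat f ∅| ≤ Real.sqrt ((degree f : ℝ) + 1)
      ∧ (Odd (degree f) → linSum f + |fhat f ∅| ≤ Real.sqrt (degree f))
      ∧ (fhat f ∅ = 0 → linSum f ≤ Real.sqrt (degree f)))) :
    ∃ ε : ℝ, 0 < ε ∧ ∀ K : ℝ, ∃ (m : ℕ) (g : (Fin m → Bool) → ℝ), IsBoolean g ∧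
      K ≤ linSum g ∧ (degree g : ℝ) ^ (1 / 2 + ε) ≤ linSum g := by
  obtain ⟨O, hO, hsO, hdO, hdO'⟩ := exists_oddify f hf
  by_cases h1 : linSum f + |fhat f ∅| ≤ Real.sqrt ((degree f : ℝ) + 1)
  · by_cases h2 : Odd (degree f) → linSum f + |fhat f ∅| ≤ Real.sqrt (degree f)
    · have h3 : ¬ (fhat f ∅ = 0 → linSum f ≤ Real.sqrt (degree f)) := fun h => hv ⟨h1, h2, h⟩
      have hmean : fhat f ∅ = 0 := by
        by_contra hne
        exact h3 (fun h => absurd h hne)
      have hlt : Real.sqrt (degree f) < linSum f := by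
        by_contra hle
        exact h3 (fun _ => le_of_not_gt hle)
      obtain ⟨g, rfl⟩ := exists_re f hf
      exact gap_of_balanced g (sum_eq_zero_of_mean (re g) hmean) hlt
    · have hodd : Odd (degree f) := by
        by_contra hne
        exact h2 (fun h => absurd h hne)
      have hlt : Real.sqrt (degree f) < linSum f + |fhat f ∅| := by
        by_contra hle
        exact h2 (fun _ => le_of_not_gt hle)
      apply gap_of_balanced O hO
      rw [hsO]
      refine lt_of_le_of_lt (Real.sqrt_le_sqrt ?_) hlt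
      exact_mod_cast hdO' hodd
  · apply gap_of_balanced O hO
    rw [hsO]
    refine lt_of_le_of_lt (Real.sqrt_le_sqrt ?_) (lt_of_not_ge h1)
    exact_mod_cast hdO

end Vale.Agent.Lib.P047
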