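import Vale.Agent.Lib.P316.Markov

/-!
The derivative at `0` of a real polynomial of odd degree at most `m = 2r+1` bounded by `1` on
`[-1,1]`, via Lagrange interpolation at the Chebyshev nodes `cos (k π / m)`:
`P'(0) ≤ m - (2 - (P(s) - P(-s))) / (m s²)` with `s = cos (r π / m) = sin (π / (2m))`.
-/

namespace Vale.Agent.Lib.P047

open Polynomial Finset Polynomial.Chebyshev
open Vale.Agent.Lib.P316

/-- the polynomial `(X² - 1) U_{2r}`, which vanishes at all nodes `cos (k π / (2r+1))` -/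
noncomputable def Bp (r : ℕ) : ℝ[X] := (X ^ 2 - 1) * U ℝ ((2 * r : ℕ) : ℤ)

theorem U_two_mul_eval_zero (r : ℕ) : (U ℝ ((2 * r : ℕ) : ℤ)).eval 0 = (-1 : ℝ) ^ r := by
  have h := U_eval_two_mul_zero (R := ℝ) (r : ℤ)
  push_cast
  rw [h]
  simp [Int.negOnePow]

theorem T_odd_eval_zero (r : ℕ) : (T ℝ ((2 * r + 1 : ℕ) : ℤ)).eval 0 = 0 := by
  apply T_eval_zero_of_odd
  exact ⟨r, by push_cast; ring⟩

theorem U_two_mul_eval_neg_one (r : ℕ) :
    (U ℝ ((2 * r : ℕ) : ℤ)).eval (-1) = 2 * (r : ℝ) + 1 := by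
  rw [U_eval_neg_one]
  simp

theorem U_two_mul_eval_one (r : ℕ) :
    (U ℝ ((2 * r : ℕ) : ℤ)).eval 1 = 2 * (r : ℝ) + 1 := by
  rw [U_eval_one]
  simp

/-- the identity `(2r+1) T_{2r+1} = X U_{2r} - (1 - X²) U_{2r}'` evaluated at a point -/
theorem U_deriv_identity (r : ℕ) (x : ℝ) :
    (2 * (r : ℝ) + 1) * (T ℝ ((2 * r + 1 : ℕ) : ℤ)).eval x
      = x * (U ℝ ((2 * r : ℕ) : ℤ)).eval x
        - (1 - x ^ 2) * (derivative (U ℝ ((2 * r : ℕ) : ℤ))).eval x := by
  have h := congrArg (Polynomial.eval x) (add_one_mul_T_eq_poly_in_U (R := ℝ) ((2 * r : ℕ) : ℤ))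
  simp only [eval_mul, eval_add, eval_sub, eval_one, eval_X, eval_pow, eval_intCast] at h
  have e : (((2 * r : ℕ) : ℤ) + 1) = ((2 * r + 1 : ℕ) : ℤ) := by push_cast; ring
  rw [e] at h
  rw [← h]
  push_cast
  ring

theorem Bp_eval_node (r k : ℕ) (hk : k ≤ 2 * r + 1) : (Bp r).eval (nd (2 * r + 1) k) = 0 := by
  unfold Bp
  rw [eval_mul]
  by_cases h0 : k = 0
  · subst h0
    rw [nd_zero]
    simp
  · by_cases hm : k = 2 * r + 1
    · subst hm
      have : nd (2 * r + 1) (2 * r + 1) = -1 := node_eq_neg_one (by omega)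
      rw [this]
      simp
    · rw [U_node_zero (Nat.pos_of_ne_zero h0) (by omega)]
      simp

theorem derivative_Bp (r : ℕ) :
    derivative (Bp r) = C 2 * X * U ℝ ((2 * r : ℕ) : ℤ)
      + (X ^ 2 - 1) * derivative (U ℝ ((2 * r : ℕ) : ℤ)) := by
  unfold Bp
  rw [derivative_mul]
  have h : derivative (X ^ 2 - 1 : ℝ[X]) = C 2 * X := by
    rw [derivative_sub, derivative_one, sub_zero, derivative_X_pow]
    norm_num
  rw [h]

theorem Bp_eval_zero (r : ℕ) : (Bp r).eval 0 = - (-1 : ℝ) ^ r := by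
  unfold Bp
  rw [eval_mul, U_two_mul_eval_zero]
  simp

theorem derivative_Bp_eval_zero (r : ℕ) : (derivative (Bp r)).eval 0 = 0 := by
  rw [derivative_Bp]
  have h := U_deriv_identity r 0
  rw [T_odd_eval_zero] at h
  simp only [eval_add, eval_mul, eval_C, eval_X, eval_sub, eval_pow, eval_one]
  nlinarith

/-- the positive numbers `b_k` with `B'(x_k) = (-1)^k b_k` -/
noncomputable def bk (r k : ℕ) : ℝ :=
  if k = 0 ∨ k = 2 * r + 1 then 2 * (2 * (r : ℝ) + 1) else 2 * (r : ℝ) + 1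

theorem bk_pos (r k : ℕ) : 0 < bk r k := by
  unfold bk
  split_ifs <;> positivity

theorem derivative_Bp_eval_node (r k : ℕ) (hk : k ≤ 2 * r + 1) :
    (derivative (Bp r)).eval (nd (2 * r + 1) k) = (-1 : ℝ) ^ k * bk r k := by
  rw [derivative_Bp]
  simp only [eval_add, eval_mul, eval_C, eval_X, eval_sub, eval_pow, eval_one]
  unfold bk
  by_cases h0 : k = 0
  · subst h0
    rw [nd_zero, U_two_mul_eval_one]
    simp
  · by_cases hm : k = 2 * r + 1
    · subst hm
      have : nd (2 * r + 1) (2 * r + 1) = -1 := node_eq_neg_one (by omega)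
      rw [this, U_two_mul_eval_neg_one]
      have hodd : (-1 : ℝ) ^ (2 * r + 1) = -1 := by
        rw [pow_succ, pow_mul]; norm_num
      rw [hodd]
      simp
    · rw [if_neg (by tauto)]
      have h := U_deriv_identity r (nd (2 * r + 1) k)
      rw [U_node_zero (Nat.pos_of_ne_zero h0) (by omega)] at h
      have hT : (T ℝ ((2 * r + 1 : ℕ) : ℤ)).eval (nd (2 * r + 1) k) = (-1 : ℝ) ^ k :=
        eval_T_real_node (Finset.mem_Iic.mpr hk)
      rw [hT] at h
      rw [U_node_zero (Nat.pos_of_ne_zero h0) (by omega)]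
      linarith

theorem nd_ne_zero (r k : ℕ) (hk : k ≤ 2 * r + 1) : nd (2 * r + 1) k ≠ 0 := by
  intro h
  have hT : (T ℝ ((2 * r + 1 : ℕ) : ℤ)).eval (nd (2 * r + 1) k) = (-1 : ℝ) ^ k :=
    eval_T_real_node (Finset.mem_Iic.mpr hk)
  rw [h, T_odd_eval_zero] at hT
  have : (-1 : ℝ) ^ k ≠ 0 := pow_ne_zero _ (by norm_num)
  exact this hT.symm

theorem natDegree_Bp_le (r : ℕ) : (Bp r).natDegree ≤ 2 * r + 2 := by
  unfold Bp
  refine natDegree_mul_le.trans ?_
  have h1 : (X ^ 2 - 1 : ℝ[X]).natDegree ≤ 2 := by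
    have := natDegree_X_pow_sub_C (R := ℝ) (n := 2) (r := 1)
    simp at this
    omega
  have h2 : (U ℝ ((2 * r : ℕ) : ℤ)).natDegree = 2 * r := natDegree_U_natCast ℝ (2 * r)
  omega

/-- the Lagrange basis polynomials at the nodes in closed form -/
theorem basis_eq_divByMonic (r k : ℕ) (hk : k ≤ 2 * r + 1) :
    Lagrange.basis (Finset.range (2 * r + 1 + 1)) (nd (2 * r + 1)) k
      = C (((-1 : ℝ) ^ k * bk r k)⁻¹) * (Bp r /ₘ (X - C (nd (2 * r + 1) k))) := by
  have hkm : k ∈ Finset.range (2 * r + 1 + 1) := Finset.mem_range.mpr (by omega)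
  have hroot : (Bp r).IsRoot (nd (2 * r + 1) k) := Bp_eval_node r k hk
  have hq := mul_divByMonic_eq_iff_isRoot.mpr hroot
  have hβ : ((-1 : ℝ) ^ k * bk r k) ≠ 0 :=
    mul_ne_zero (pow_ne_zero _ (by norm_num)) (ne_of_gt (bk_pos r k))
  apply Polynomial.eq_of_degrees_lt_of_eval_index_eq (Finset.range (2 * r + 1 + 1))
    (injOn_nd (2 * r + 1))
  · rw [Lagrange.degree_basis (injOn_nd (2 * r + 1)) hkm, Finset.card_range]
    norm_cast
    omega
  · rw [Finset.card_range]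
    have h1 : (Bp r /ₘ (X - C (nd (2 * r + 1) k))).natDegree ≤ 2 * r + 1 := by
      rw [natDegree_divByMonic _ (monic_X_sub_C _), natDegree_X_sub_C]
      have := natDegree_Bp_le r
      omega
    have h2 : (C (((-1 : ℝ) ^ k * bk r k)⁻¹) * (Bp r /ₘ (X - C (nd (2 * r + 1) k)))).natDegree
        ≤ 2 * r + 1 := (natDegree_C_mul_le _ _).trans h1
    refine lt_of_le_of_lt (degree_le_of_natDegree_le h2) ?_
    norm_cast
    omega
  · intro j hj
    by_cases hjk : j = k
    · subst hjk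
      rw [Lagrange.eval_basis_self (injOn_nd (2 * r + 1)) hj, eval_mul, eval_C]
      have h3 : (Bp r /ₘ (X - C (nd (2 * r + 1) j))).eval (nd (2 * r + 1) j)
          = (-1 : ℝ) ^ j * bk r j := by
        rw [← derivative_Bp_eval_node r j hk]
        conv_rhs => rw [← hq]
        rw [eval_derivative_X_sub_C_mul]
      rw [h3, inv_mul_cancel₀ hβ]
    · rw [Lagrange.eval_basis_of_ne (Ne.symm hjk) hj, eval_mul, eval_C]
      have hjm : j ≤ 2 * r + 1 := by
        have := Finset.mem_range.mp hj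
        omega
      have h4 := congrArg (Polynomial.eval (nd (2 * r + 1) j)) hq
      rw [eval_mul, Bp_eval_node r j hjm] at h4
      simp only [eval_sub, eval_X, eval_C] at h4
      have hne : nd (2 * r + 1) j - nd (2 * r + 1) k ≠ 0 := by
        intro h
        exact hjk (injOn_nd (2 * r + 1) (Finset.mem_coe.mpr hj) (Finset.mem_coe.mpr hkm)
          (sub_eq_zero.mp h))
      rcases mul_eq_zero.mp h4 with h5 | h5
      · exact absurd h5 hne
      · rw [h5, mul_zero]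

/-- the positive weights `w_k = 1 / (b_k x_k²)` -/
noncomputable def wk (r k : ℕ) : ℝ := (bk r k * nd (2 * r + 1) k ^ 2)⁻¹

theorem wk_pos (r k : ℕ) (hk : k ≤ 2 * r + 1) : 0 < wk r k := by
  unfold wk
  have := nd_ne_zero r k hk
  have h2 := bk_pos r k
  positivity

/-- the derivative at `0` of the basis polynomials -/
theorem derivative_basis_eval_zero (r k : ℕ) (hk : k ≤ 2 * r + 1) :
    (derivative (Lagrange.basis (Finset.range (2 * r + 1 + 1)) (nd (2 * r + 1)) k)).eval 0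
      = (-1 : ℝ) ^ (r + k) * wk r k := by
  rw [basis_eq_divByMonic r k hk, derivative_C_mul, eval_mul, eval_C]
  have hroot : (Bp r).IsRoot (nd (2 * r + 1) k) := Bp_eval_node r k hk
  have hq := mul_divByMonic_eq_iff_isRoot.mpr hroot
  have hx := nd_ne_zero r k hk
  have hb := bk_pos r k
  -- value and derivative at 0 of the product
  have e0 := congrArg (Polynomial.eval 0) hq
  have e1 := congrArg (fun p => (derivative p).eval 0) hq
  simp only [derivative_mul, derivative_sub, derivative_X, derivative_C, sub_zero, one_mul,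
    eval_add, eval_mul, eval_sub, eval_X, eval_C, zero_sub] at e0 e1
  rw [Bp_eval_zero] at e0
  rw [derivative_Bp_eval_zero] at e1
  -- q(0) = (-1)^r / x_k,  q'(0) = q(0) / x_k
  have hq0 : (Bp r /ₘ (X - C (nd (2 * r + 1) k))).eval 0 = (-1 : ℝ) ^ r / nd (2 * r + 1) k := by
    field_simp
    linarith
  have hq1 : (derivative (Bp r /ₘ (X - C (nd (2 * r + 1) k)))).eval 0
      = (-1 : ℝ) ^ r / nd (2 * r + 1) k ^ 2 := by
    rw [hq0] at e1
    field_simp
    field_simp at e1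
    linarith
  rw [hq1]
  unfold wk
  have hs : ((-1 : ℝ) ^ k)⁻¹ = (-1 : ℝ) ^ k := by
    rw [← inv_pow]; norm_num
  rw [mul_inv, hs, pow_add, mul_inv]
  field_simp

theorem derivative_eval_zero_eq_sum (r : ℕ) {P : ℝ[X]} (hP : P.degree ≤ (2 * r + 1 : ℕ)) :
    (derivative P).eval 0 = ∑ k ∈ Finset.range (2 * r + 1 + 1),
      P.eval (nd (2 * r + 1) k) * ((-1 : ℝ) ^ (r + k) * wk r k) := by
  have hlt : P.degree < (Finset.range (2 * r + 1 + 1)).card := by
    rw [Finset.card_range]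
    refine lt_of_le_of_lt hP ?_
    norm_cast
    omega
  have h := Lagrange.eq_interpolate (injOn_nd (2 * r + 1)) hlt
  rw [Lagrange.interpolate_apply] at h
  conv_lhs => rw [h]
  simp only [derivative_sum, derivative_C_mul, eval_finsetSum, eval_C_mul]
  refine Finset.sum_congr rfl fun k hk => ?_
  rw [derivative_basis_eval_zero r k (by have := Finset.mem_range.mp hk; omega)]

/-- the weights sum to `2r+1` -/
theorem sum_wk (r : ℕ) :
    ∑ k ∈ Finset.range (2 * r + 1 + 1), wk r k = 2 * (r : ℝ) + 1 := by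
  have hdeg : (T ℝ ((2 * r + 1 : ℕ) : ℤ)).degree ≤ (2 * r + 1 : ℕ) := by
    rw [degree_T, Int.natAbs_natCast]
  have h := derivative_eval_zero_eq_sum r hdeg
  have hT : (derivative (T ℝ ((2 * r + 1 : ℕ) : ℤ))).eval 0 = (2 * (r : ℝ) + 1) * (-1 : ℝ) ^ r := by
    rw [T_derivative_eq_U]
    have e : (((2 * r + 1 : ℕ) : ℤ) - 1) = ((2 * r : ℕ) : ℤ) := by push_cast; ring
    rw [e, eval_mul, U_two_mul_eval_zero]
    simp
  rw [hT] at h
  have h2 : ∀ k ∈ Finset.range (2 * r + 1 + 1),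
      (T ℝ ((2 * r + 1 : ℕ) : ℤ)).eval (nd (2 * r + 1) k) * ((-1 : ℝ) ^ (r + k) * wk r k)
        = (-1 : ℝ) ^ r * wk r k := by
    intro k hk
    have hT : (T ℝ ((2 * r + 1 : ℕ) : ℤ)).eval (nd (2 * r + 1) k) = (-1 : ℝ) ^ k :=
      eval_T_real_node (Finset.mem_Iic.mpr (by have := Finset.mem_range.mp hk; omega))
    rw [hT, pow_add]
    have : (-1 : ℝ) ^ k * (-1 : ℝ) ^ k = 1 := by
      rw [← mul_pow]; norm_num
    linear_combination ((-1 : ℝ) ^ r * wk r k) * this
  rw [Finset.sum_congr rfl h2, ← Finset.mul_sum] at h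
  have hr : (-1 : ℝ) ^ r * (-1 : ℝ) ^ r = 1 := by
    rw [← mul_pow]; norm_num
  have h3 : (-1 : ℝ) ^ r ≠ 0 := pow_ne_zero _ (by norm_num)
  have h4 : (-1 : ℝ) ^ r * (2 * (r : ℝ) + 1)
      = (-1 : ℝ) ^ r * ∑ k ∈ Finset.range (2 * r + 1 + 1), wk r k := by
    rw [← h]; ring
  exact (mul_left_cancel₀ h3 h4).symm

theorem term_le (r k : ℕ) (hk : k ≤ 2 * r + 1) {P : ℝ[X]}
    (hb : ∀ x ∈ Set.Icc (-1 : ℝ) 1, |P.eval x| ≤ 1) :
    P.eval (nd (2 * r + 1) k) * ((-1 : ℝ) ^ (r + k) * wk r k) ≤ wk r k := by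
  have h1 := hb (nd (2 * r + 1) k) node_mem_Icc
  have hw := wk_pos r k hk
  have h2 : |P.eval (nd (2 * r + 1) k) * (-1 : ℝ) ^ (r + k)| ≤ 1 := by
    rw [abs_mul, abs_pow]
    simpa using h1
  have h3 := (abs_le.mp h2).2
  calc P.eval (nd (2 * r + 1) k) * ((-1 : ℝ) ^ (r + k) * wk r k)
      = (P.eval (nd (2 * r + 1) k) * (-1 : ℝ) ^ (r + k)) * wk r k := by ring
    _ ≤ 1 * wk r k := mul_le_mul_of_nonneg_right h3 hw.le
    _ = wk r k := one_mul _

/-- V. Markov at `0` for odd degree: `P'(0) ≤ 2r+1`. -/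
theorem derivative_eval_zero_le (r : ℕ) {P : ℝ[X]} (hP : P.degree ≤ (2 * r + 1 : ℕ))
    (hb : ∀ x ∈ Set.Icc (-1 : ℝ) 1, |P.eval x| ≤ 1) :
    (derivative P).eval 0 ≤ 2 * (r : ℝ) + 1 := by
  rw [derivative_eval_zero_eq_sum r hP, ← sum_wk r]
  apply Finset.sum_le_sum
  intro k hk
  exact term_le r k (by have := Finset.mem_range.mp hk; omega) hb

theorem nd_succ_eq_neg (r : ℕ) : nd (2 * r + 1) (r + 1) = - nd (2 * r + 1) r := by
  unfold nd node
  rw [← Real.cos_pi_sub]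
  congr 1
  push_cast
  field_simp
  ring

/-- the refined bound with the gain at the two nodes nearest to `0` -/
theorem derivative_eval_zero_le_refined (r : ℕ) (hr : 1 ≤ r) {P : ℝ[X]}
    (hP : P.degree ≤ (2 * r + 1 : ℕ))
    (hb : ∀ x ∈ Set.Icc (-1 : ℝ) 1, |P.eval x| ≤ 1) :
    (derivative P).eval 0 ≤ 2 * (r : ℝ) + 1
      - ((2 * (r : ℝ) + 1) * nd (2 * r + 1) r ^ 2)⁻¹
        * (2 - (P.eval (nd (2 * r + 1) r) - P.eval (- nd (2 * r + 1) r))) := by
  rw [derivative_eval_zero_eq_sum r hP]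
  have hsum := sum_wk r
  -- all terms of `w - a` are nonnegative, so the sum dominates the two terms at `r`, `r+1`
  have hnn : ∀ k ∈ Finset.range (2 * r + 1 + 1), k ∉ ({r, r + 1} : Finset ℕ) →
      0 ≤ wk r k - P.eval (nd (2 * r + 1) k) * ((-1 : ℝ) ^ (r + k) * wk r k) := by
    intro k hk _
    have := term_le r k (by have := Finset.mem_range.mp hk; omega) hb
    linarith
  have hsub : ({r, r + 1} : Finset ℕ) ⊆ Finset.range (2 * r + 1 + 1) := by
    intro k hk
    simp only [Finset.mem_insert, Finset.mem_singleton] at hk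
    rw [Finset.mem_range]
    omega
  have h1 := Finset.sum_le_sum_of_subset_of_nonneg hsub hnn
  rw [Finset.sum_pair (by omega : r ≠ r + 1), Finset.sum_sub_distrib, hsum] at h1
  -- the two weights
  have hbr : bk r r = 2 * (r : ℝ) + 1 := by
    unfold bk
    rw [if_neg (by omega)]
  have hbr1 : bk r (r + 1) = 2 * (r : ℝ) + 1 := by
    unfold bk
    rw [if_neg (by omega)]
  have hw1 : wk r r = ((2 * (r : ℝ) + 1) * nd (2 * r + 1) r ^ 2)⁻¹ := by
    unfold wk; rw [hbr]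
  have hw2 : wk r (r + 1) = ((2 * (r : ℝ) + 1) * nd (2 * r + 1) r ^ 2)⁻¹ := by
    unfold wk; rw [hbr1, nd_succ_eq_neg]; ring_nf
  have hs1 : (-1 : ℝ) ^ (r + r) = 1 := by
    rw [← two_mul, pow_mul]; norm_num
  have hs2 : (-1 : ℝ) ^ (r + (r + 1)) = -1 := by
    rw [← add_assoc, pow_succ, hs1]; norm_num
  rw [hs1, hs2, nd_succ_eq_neg, hw1, hw2] at h1
  linarith

end Vale.Agent.Lib.P047
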