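import Vale.Agent.Lib.P047.Reindex

namespace Vale.Agent.Lib.P047

open Finset

theorem isBoolean_re {ι : Type} (g : (ι → Bool) → Bool) : IsBoolean (re g) := by
  intro x
  unfold re
  cases g x <;> simp [sgn]

/-- every Boolean real-valued function comes from a `Bool`-valued one -/
theorem exists_re {ι : Type} (f : (ι → Bool) → ℝ) (hf : IsBoolean f) :
    ∃ g : (ι → Bool) → Bool, re g = f := by
  classical
  refine ⟨fun x => decide (f x = -1), ?_⟩
  funext x
  show sgn (decide (f x = -1)) = f x
  rcases hf x with h | h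
  · have h' : ¬ (f x = -1) := by rw [h]; norm_num
    rw [decide_eq_false h', sgn_false, h]
  · rw [decide_eq_true h, sgn_true, h]

section
variable {ι : Type} [Fintype ι] [DecidableEq ι]

theorem sum_eq_zero_of_mean (f : (ι → Bool) → ℝ) (h : fhat f ∅ = 0) :
    ∑ x : ι → Bool, f x = 0 := by
  rw [mean_eq] at h
  have h2 : ((2 : ℝ) ^ Fintype.card ι) ≠ 0 := by positivity
  exact (div_eq_zero_iff.mp h).resolve_right h2

theorem mean_of_sum_eq_zero (f : (ι → Bool) → ℝ) (h : ∑ x : ι → Bool, f x = 0) :
    fhat f ∅ = 0 := by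
  rw [mean_eq, h, zero_div]

/-- the weak form, transported from `Fin n` to arbitrary finite index types -/
theorem weak_general (C : ℝ)
    (H : ∀ (n : ℕ) (f : (Fin n → Bool) → ℝ), IsBoolean f →
      linSum f ≤ C * Real.sqrt (degree f))
    (f : (ι → Bool) → ℝ) (hf : IsBoolean f) :
    linSum f ≤ C * Real.sqrt (degree f) := by
  have h := H (Fintype.card ι) (reindex (Fintype.equivFin ι) f) (fun x => hf _)
  rw [linSum_reindex, degree_reindex] at h
  exact h

end

/-- iterated composition of a balanced Boolean function with itself -/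
theorem iterate {ι : Type} [Fintype ι] [DecidableEq ι] (F : (ι → Bool) → Bool)
    (hF : ∑ y : ι → Bool, sgn (F y) = 0) (k : ℕ) :
    ∃ (κ : Type) (_ : Fintype κ) (_ : DecidableEq κ) (G : (κ → Bool) → Bool),
      (∑ y : κ → Bool, sgn (G y) = 0) ∧ linSum (re G) = linSum (re F) ^ (k + 1)
        ∧ degree (re G) ≤ degree (re F) ^ (k + 1) := by
  induction k with
  | zero => exact ⟨ι, inferInstance, inferInstance, F, hF, by simp, by simp⟩
  | succ k ih =>
    obtain ⟨κ, i1, i2, G, hG, hs, hd⟩ := ih
    refine ⟨ι × κ, inferInstance, inferInstance, compB F G, ?_, ?_, ?_⟩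
    · have h1 : fhat (comp (re F) G) ∅ = 0 := by
        rw [mean_comp (re F) G hG]
        exact mean_of_sum_eq_zero (re F) hF
      exact sum_eq_zero_of_mean (comp (re F) G) h1
    · rw [re_compB, linSum_comp (re F) G hG, hs]
      ring
    · rw [re_compB]
      calc degree (comp (re F) G) ≤ degree (re F) * degree (re G) := degree_comp (re F) G hG
        _ ≤ degree (re F) * degree (re F) ^ (k + 1) := Nat.mul_le_mul_left _ hd
        _ = degree (re F) ^ (k + 1 + 1) := by ring

/-- the analytic core: a geometric sequence bounded by another one -/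
theorem pow_bound_imp (s C : ℝ) (d : ℕ) (hs : 0 < s)
    (h : ∀ k : ℕ, s ^ (k + 1) ≤ C * Real.sqrt ((d : ℝ) ^ (k + 1))) :
    s ≤ Real.sqrt d := by
  by_contra hcon
  have hlt : Real.sqrt d < s := lt_of_not_ge hcon
  have hr0 : 0 ≤ Real.sqrt d := Real.sqrt_nonneg _
  have hsq : ∀ k : ℕ, Real.sqrt ((d : ℝ) ^ (k + 1)) = Real.sqrt d ^ (k + 1) := by
    intro k
    rw [Real.sqrt_eq_iff_eq_sq (by positivity) (by positivity)]
    rw [← pow_mul, mul_comm, pow_mul, Real.sq_sqrt (Nat.cast_nonneg d)]
  rcases eq_or_lt_of_le hr0 with hz | hpos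
  · have h0 := h 0
    rw [hsq 0, ← hz] at h0
    simp at h0
    linarith
  · have hq : 1 < s / Real.sqrt d := by
      rw [one_lt_div hpos]
      exact hlt
    obtain ⟨n, hn⟩ := pow_unbounded_of_one_lt C hq
    have h1 := h n
    rw [hsq n] at h1
    have h2 : (s / Real.sqrt d) ^ (n + 1) ≤ C := by
      rw [div_pow, div_le_iff₀ (by positivity)]
      exact h1
    have h3 : (s / Real.sqrt d) ^ n ≤ (s / Real.sqrt d) ^ (n + 1) :=
      pow_le_pow_right₀ hq.le (Nat.le_succ n)
    linarith

/-- Core statement: under the weak form, every balanced Boolean function satisfies the strong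
form. -/
theorem core {ι : Type} [Fintype ι] [DecidableEq ι] (C : ℝ)
    (H : ∀ (n : ℕ) (f : (Fin n → Bool) → ℝ), IsBoolean f →
      linSum f ≤ C * Real.sqrt (degree f))
    (F : (ι → Bool) → Bool) (hF : ∑ y : ι → Bool, sgn (F y) = 0) :
    linSum (re F) ≤ Real.sqrt (degree (re F)) := by
  by_cases hs : 0 < linSum (re F)
  · apply pow_bound_imp (linSum (re F)) C (degree (re F)) hs
    intro k
    obtain ⟨κ, i1, i2, G, hG, hsG, hdG⟩ := iterate F hF k
    have h1 := weak_general C H (re G) (isBoolean_re G)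
    rw [hsG] at h1
    have hCpos : 0 ≤ C := by
      by_contra hneg
      have hneg' : C < 0 := lt_of_not_ge hneg
      have h2 : C * Real.sqrt (degree (re G)) ≤ 0 :=
        mul_nonpos_of_nonpos_of_nonneg hneg'.le (Real.sqrt_nonneg _)
      have h3 : 0 < linSum (re F) ^ (k + 1) := pow_pos hs _
      linarith
    calc linSum (re F) ^ (k + 1) ≤ C * Real.sqrt (degree (re G)) := h1
      _ ≤ C * Real.sqrt ((degree (re F) : ℝ) ^ (k + 1)) := by
        apply mul_le_mul_of_nonneg_left _ hCpos
        apply Real.sqrt_le_sqrt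
        exact_mod_cast hdG
  · exact le_trans (le_of_not_gt hs) (Real.sqrt_nonneg _)

end Vale.Agent.Lib.P047
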