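import Vale.Agent.Lib.P047.Comp2

namespace Vale.Agent.Lib.P047

open Finset

/-- the odd extension `F(x, y) = y * f(y * x)` (with an optional global sign flip `c` of `y`) -/
def oddify {ι : Type} (c : Bool) (f : (ι → Bool) → ℝ) : (Option ι → Bool) → ℝ :=
  fun x => sgn (xor c (x none)) * f (fun i => xor (xor c (x none)) (x (some i)))

/-- `Bool`-valued odd extension -/
def oddifyB {ι : Type} (c : Bool) (f : (ι → Bool) → Bool) : (Option ι → Bool) → Bool :=
  fun x => xor (xor c (x none)) (f (fun i => xor (xor c (x none)) (x (some i))))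

theorem re_oddifyB {ι : Type} (c : Bool) (f : (ι → Bool) → Bool) :
    re (oddifyB c f) = oddify c (re f) := by
  funext x
  show sgn (xor (xor c (x none)) (f _)) = sgn (xor c (x none)) * sgn (f _)
  rw [sgn_xor]

section
variable {ι : Type} [Fintype ι] [DecidableEq ι]

theorem sum_option_cube (Φ : (Option ι → Bool) → ℝ) :
    ∑ x : Option ι → Bool, Φ x = ∑ y : Bool, ∑ w : ι → Bool, Φ (fun o => o.elim y w) := by
  rw [← Fintype.sum_prod_type (fun p : Bool × (ι → Bool) => Φ (fun o => o.elim p.1 p.2))]
  apply Fintype.sum_equiv (Equiv.piOptionEquivProd (β := fun _ : Option ι => Bool))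
  intro x
  congr 1
  funext o
  cases o <;> rfl

theorem chi_option (T : Finset (Option ι)) (y : Bool) (w : ι → Bool) :
    chi T (fun o => o.elim y w) = (if none ∈ T then sgn y else 1) * chi T.eraseNone w := by
  rw [chi_eq_prod_ite, Fintype.prod_option, chi_eq_prod_ite]
  congr 1
  apply Finset.prod_congr rfl
  intro i _
  simp [Finset.mem_eraseNone]

theorem sum_flip (b : Bool) (Φ : (ι → Bool) → ℝ) :
    ∑ w : ι → Bool, Φ w = ∑ z : ι → Bool, Φ (fun i => xor b (z i)) := by
  have hinv : Function.Involutive (fun (z : ι → Bool) => fun i => xor b (z i)) := by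
    intro z
    funext i
    simp
  exact (Fintype.sum_equiv hinv.toPerm (fun z => Φ (fun i => xor b (z i))) Φ (fun z => rfl)).symm

theorem chi_flip (b : Bool) (S : Finset ι) (z : ι → Bool) :
    chi S (fun i => xor b (z i)) = sgn b ^ S.card * chi S z := by
  unfold chi
  simp_rw [sgn_xor]
  rw [Finset.prod_mul_distrib, Finset.prod_const]

theorem bracket (c : Bool) (k : ℕ) (P : Prop) [Decidable P] :
    sgn (xor c true) ^ (k + 1) * (if P then sgn true else 1)
      + sgn (xor c false) ^ (k + 1) * (if P then sgn false else 1)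
      = if (Even k ↔ P) then 2 * sgn c ^ (k + 1) else 0 := by
  have h1 : sgn (xor c true) = - sgn c := by cases c <;> simp [sgn]
  have h2 : sgn (xor c false) = sgn c := by cases c <;> simp [sgn]
  rw [h1, h2, sgn_true, sgn_false]
  rcases Nat.even_or_odd k with he | ho
  · have h3 : (-sgn c) ^ (k + 1) = - sgn c ^ (k + 1) := by
      rw [neg_pow, pow_succ (-1 : ℝ), he.neg_one_pow]
      ring
    by_cases hP : P
    · simp only [hP, he, h3, if_true]
      ring
    · simp [hP, he, h3]
  · have h3 : (-sgn c) ^ (k + 1) = sgn c ^ (k + 1) := by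
      rw [neg_pow, pow_succ (-1 : ℝ), ho.neg_one_pow]
      ring
    have hne : ¬ Even k := Nat.not_even_iff_odd.mpr ho
    by_cases hP : P
    · simp [hP, hne, h3]
    · simp only [hP, hne, h3, if_false]
      simp
      ring

theorem fhat_oddify (c : Bool) (f : (ι → Bool) → ℝ) (T : Finset (Option ι)) :
    fhat (oddify c f) T
      = if (Even T.eraseNone.card ↔ none ∈ T)
        then sgn c ^ (T.eraseNone.card + 1) * fhat f T.eraseNone else 0 := by
  have inner : ∀ y : Bool, ∑ w : ι → Bool, oddify c f (fun o => o.elim y w)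
        * chi T (fun o => o.elim y w)
      = sgn (xor c y) ^ (T.eraseNone.card + 1) * (if none ∈ T then sgn y else 1)
        * ∑ z : ι → Bool, f z * chi T.eraseNone z := by
    intro y
    rw [sum_flip (xor c y)]
    rw [Finset.mul_sum]
    apply Finset.sum_congr rfl
    intro z _
    rw [chi_option, chi_flip]
    unfold oddify
    simp only [Option.elim_none, Option.elim_some]
    have : (fun i => xor (xor c y) (xor (xor c y) (z i))) = z := by
      funext i
      generalize z i = t
      cases c <;> cases y <;> cases t <;> rfl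
    rw [this]
    ring
  unfold fhat
  rw [sum_option_cube]
  simp_rw [inner]
  rw [Fintype.sum_bool]
  have hb := bracket c T.eraseNone.card (none ∈ T)
  rw [← add_mul, hb]
  simp only [Fintype.card_option]
  have h2 : ((2 : ℝ) ^ Fintype.card ι) ≠ 0 := by positivity
  split_ifs with h
  · rw [pow_succ (2 : ℝ)]
    field_simp
  · simp

end

end Vale.Agent.Lib.P047
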