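import Mathlib

/-!
A comparison lemma: if `g(0) = 0`, `|g| ≤ 1` and `(1 - t²) g'(t) ≤ d (1 - g(t)²)` on `[0, x]`,
`x < 1`, then `g(x) ≤ tanh (d artanh x)`, written without division as
`(1 + g x) (1 - x)^d ≤ (1 - g x) (1 + x)^d`.
-/

namespace Vale.Agent.Lib.P047

open Set

theorem hasDerivAt_one_sub_pow (e : ℕ) (t : ℝ) :
    HasDerivAt (fun s : ℝ => (1 - s) ^ (e + 1)) (-((e : ℝ) + 1) * (1 - t) ^ e) t := by
  have h := ((hasDerivAt_id t).const_sub 1).pow (e + 1)
  have h2 : HasDerivAt (fun s : ℝ => (1 - s) ^ (e + 1))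
      (((e + 1 : ℕ) : ℝ) * (1 - id t) ^ (e + 1 - 1) * -1) t := h
  refine h2.congr_deriv ?_
  simp only [Nat.add_sub_cancel, id]
  push_cast
  ring

theorem hasDerivAt_one_add_pow (e : ℕ) (t : ℝ) :
    HasDerivAt (fun s : ℝ => (1 + s) ^ (e + 1)) (((e : ℝ) + 1) * (1 + t) ^ e) t := by
  have h := ((hasDerivAt_id t).const_add 1).pow (e + 1)
  have h2 : HasDerivAt (fun s : ℝ => (1 + s) ^ (e + 1))
      (((e + 1 : ℕ) : ℝ) * (1 + id t) ^ (e + 1 - 1) * 1) t := h
  refine h2.congr_deriv ?_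
  simp only [Nat.add_sub_cancel, id]
  push_cast
  ring

theorem ode_comparison (e : ℕ) (g g' : ℝ → ℝ) (x : ℝ) (hx0 : 0 ≤ x) (hx1 : x < 1)
    (hderiv : ∀ t ∈ Icc 0 x, HasDerivAt g (g' t) t)
    (hbound : ∀ t ∈ Icc 0 x, |g t| ≤ 1)
    (h0 : g 0 = 0)
    (hineq : ∀ t ∈ Icc 0 x, (1 - t ^ 2) * g' t ≤ ((e : ℝ) + 1) * (1 - g t ^ 2)) :
    (1 + g x) * (1 - x) ^ (e + 1) ≤ (1 - g x) * (1 + x) ^ (e + 1) := by
  have hv : ∀ t ∈ Icc 0 x, HasDerivAt (fun s => (1 + g s) * (1 - s) ^ (e + 1))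
      (g' t * (1 - t) ^ (e + 1) + (1 + g t) * (-((e : ℝ) + 1) * (1 - t) ^ e)) t := by
    intro t ht
    exact ((hderiv t ht).const_add 1).mul (hasDerivAt_one_sub_pow e t)
  have hu : ∀ t ∈ Icc 0 x, HasDerivAt (fun s => (1 - g s) * (1 + s) ^ (e + 1))
      (-(g' t) * (1 + t) ^ (e + 1) + (1 - g t) * (((e : ℝ) + 1) * (1 + t) ^ e)) t := by
    intro t ht
    exact ((hderiv t ht).const_sub 1).mul (hasDerivAt_one_add_pow e t)
  have key : ∀ ε : ℝ, 0 < ε → ∀ ⦃t⦄, t ∈ Icc 0 x →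
      (1 + g t) * (1 - t) ^ (e + 1) ≤ (1 + ε * t) * ((1 - g t) * (1 + t) ^ (e + 1)) := by
    intro ε hε
    have hB : ∀ t ∈ Icc 0 x, HasDerivAt (fun s => (1 + ε * s) * ((1 - g s) * (1 + s) ^ (e + 1)))
        (ε * ((1 - g t) * (1 + t) ^ (e + 1)) + (1 + ε * t)
          * (-(g' t) * (1 + t) ^ (e + 1) + (1 - g t) * (((e : ℝ) + 1) * (1 + t) ^ e))) t := by
      intro t ht
      have h1 : HasDerivAt (fun s : ℝ => 1 + ε * s) ε t := by
        have := ((hasDerivAt_id t).const_mul ε).const_add 1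
        simpa using this
      exact h1.mul (hu t ht)
    apply image_le_of_deriv_right_lt_deriv_boundary'
      (f := fun s => (1 + g s) * (1 - s) ^ (e + 1))
      (f' := fun t => g' t * (1 - t) ^ (e + 1) + (1 + g t) * (-((e : ℝ) + 1) * (1 - t) ^ e))
      (B := fun s => (1 + ε * s) * ((1 - g s) * (1 + s) ^ (e + 1)))
      (B' := fun t => ε * ((1 - g t) * (1 + t) ^ (e + 1)) + (1 + ε * t)
          * (-(g' t) * (1 + t) ^ (e + 1) + (1 - g t) * (((e : ℝ) + 1) * (1 + t) ^ e)))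
    · intro t ht
      exact (hv t ht).continuousAt.continuousWithinAt
    · intro t ht
      exact (hv t ⟨ht.1, ht.2.le⟩).hasDerivWithinAt
    · simp [h0]
    · intro t ht
      exact (hB t ht).continuousAt.continuousWithinAt
    · intro t ht
      exact (hB t ⟨ht.1, ht.2.le⟩).hasDerivWithinAt
    · intro t ht heq
      have htI : t ∈ Icc 0 x := ⟨ht.1, ht.2.le⟩
      have ha : 0 < 1 + t := by linarith [ht.1]
      have hb : 0 < 1 - t := by linarith [ht.2]
      have hG := abs_le.mp (hbound t htI)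
      have hin := hineq t htI
      have hae : 0 < (1 + t) ^ e := pow_pos ha e
      have hbe : 0 < (1 - t) ^ e := pow_pos hb e
      have ha1 : 0 < (1 + t) ^ (e + 1) := pow_pos ha _
      have hb1 : 0 < (1 - t) ^ (e + 1) := pow_pos hb _
      -- u > 0
      have hupos : 0 < (1 - g t) * (1 + t) ^ (e + 1) := by
        have hnn : 0 ≤ (1 - g t) * (1 + t) ^ (e + 1) := mul_nonneg (by linarith) ha1.le
        rcases hnn.lt_or_eq with h | h
        · exact h
        · exfalso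
          have h1 : 1 - g t = 0 := by
            rcases mul_eq_zero.mp h.symm with h2 | h2
            · exact h2
            · exact absurd h2 (ne_of_gt ha1)
          have h2 : g t = 1 := by linarith
          simp only [h2] at heq
          have : (0 : ℝ) < (1 + 1) * (1 - t) ^ (e + 1) := by positivity
          rw [heq] at this
          simp at this
      -- the Wronskian identity
      have hW : (-(g' t) * (1 + t) ^ (e + 1) + (1 - g t) * (((e : ℝ) + 1) * (1 + t) ^ e))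
            * ((1 + g t) * (1 - t) ^ (e + 1))
          - ((1 - g t) * (1 + t) ^ (e + 1))
            * (g' t * (1 - t) ^ (e + 1) + (1 + g t) * (-((e : ℝ) + 1) * (1 - t) ^ e))
          = 2 * ((1 + t) ^ e * (1 - t) ^ e)
            * (((e : ℝ) + 1) * (1 - g t ^ 2) - (1 - t ^ 2) * g' t) := by
        ring
      have hW2 : 0 ≤ 2 * ((1 + t) ^ e * (1 - t) ^ e)
            * (((e : ℝ) + 1) * (1 - g t ^ 2) - (1 - t ^ 2) * g' t) := by
        apply mul_nonneg (by positivity)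
        linarith
      rw [← hW] at hW2
      -- v' u ≤ u' v = u' (1 + ε t) u
      have heq' : (1 + g t) * (1 - t) ^ (e + 1)
          = (1 + ε * t) * ((1 - g t) * (1 + t) ^ (e + 1)) := heq
      rw [heq'] at hW2
      have h3 : (g' t * (1 - t) ^ (e + 1) + (1 + g t) * (-((e : ℝ) + 1) * (1 - t) ^ e))
          * ((1 - g t) * (1 + t) ^ (e + 1))
          ≤ ((1 + ε * t) * (-(g' t) * (1 + t) ^ (e + 1)
              + (1 - g t) * (((e : ℝ) + 1) * (1 + t) ^ e)))
            * ((1 - g t) * (1 + t) ^ (e + 1)) := by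
        linarith
      have h4 := le_of_mul_le_mul_right h3 hupos
      have h5 : 0 < ε * ((1 - g t) * (1 + t) ^ (e + 1)) := mul_pos hε hupos
      show g' t * (1 - t) ^ (e + 1) + (1 + g t) * (-((e : ℝ) + 1) * (1 - t) ^ e)
        < ε * ((1 - g t) * (1 + t) ^ (e + 1)) + (1 + ε * t)
          * (-(g' t) * (1 + t) ^ (e + 1) + (1 - g t) * (((e : ℝ) + 1) * (1 + t) ^ e))
      linarith
  -- let ε → 0
  have hxI : x ∈ Icc 0 x := ⟨hx0, le_refl x⟩
  have hG := abs_le.mp (hbound x hxI)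
  have hu0 : 0 ≤ (1 - g x) * (1 + x) ^ (e + 1) :=
    mul_nonneg (by linarith) (pow_nonneg (by linarith) _)
  apply le_of_forall_pos_le_add
  intro δ hδ
  have hden : 0 < x * ((1 - g x) * (1 + x) ^ (e + 1)) + 1 := by
    have := mul_nonneg hx0 hu0
    linarith
  have h1 := key (δ / (x * ((1 - g x) * (1 + x) ^ (e + 1)) + 1)) (div_pos hδ hden) hxI
  have h2 : (1 + δ / (x * ((1 - g x) * (1 + x) ^ (e + 1)) + 1) * x)
        * ((1 - g x) * (1 + x) ^ (e + 1))
      = (1 - g x) * (1 + x) ^ (e + 1)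
        + δ * ((x * ((1 - g x) * (1 + x) ^ (e + 1)))
            / (x * ((1 - g x) * (1 + x) ^ (e + 1)) + 1)) := by
    field_simp
  have h3 : (x * ((1 - g x) * (1 + x) ^ (e + 1)))
            / (x * ((1 - g x) * (1 + x) ^ (e + 1)) + 1) ≤ 1 := by
    rw [div_le_one hden]
    linarith
  rw [h2] at h1
  have h4 : δ * ((x * ((1 - g x) * (1 + x) ^ (e + 1)))
            / (x * ((1 - g x) * (1 + x) ^ (e + 1)) + 1)) ≤ δ := by
    have := mul_le_mul_of_nonneg_left h3 hδ.le
    linarith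
  linarith

end Vale.Agent.Lib.P047
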