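import Vale.Agent.Lib.P047.Oddify

namespace Vale.Agent.Lib.P047

open Finset

section
variable {ι : Type} [Fintype ι] [DecidableEq ι]

theorem mean_oddify (c : Bool) (f : (ι → Bool) → ℝ) : fhat (oddify c f) ∅ = 0 := by
  rw [fhat_oddify]
  simp

theorem fhat_oddify_none (c : Bool) (f : (ι → Bool) → ℝ) :
    fhat (oddify c f) {none} = sgn c * fhat f ∅ := by
  rw [fhat_oddify]
  simp

theorem fhat_oddify_some (c : Bool) (f : (ι → Bool) → ℝ) (i : ι) :
    fhat (oddify c f) {some i} = fhat f {i} := by
  rw [fhat_oddify]
  have h1 : ({some i} : Finset (Option ι)).eraseNone = {i} := by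
    ext j
    simp [Finset.mem_eraseNone]
  rw [h1]
  have h2 : sgn c ^ 2 = 1 := by
    rw [sq]
    exact sgn_mul_self c
  simp [h2]

theorem linSum_oddify (c : Bool) (f : (ι → Bool) → ℝ) :
    linSum (oddify c f) = linSum f + sgn c * fhat f ∅ := by
  unfold linSum
  rw [Fintype.sum_option, fhat_oddify_none]
  simp_rw [fhat_oddify_some]
  ring

theorem card_le_eraseNone (T : Finset (Option ι)) :
    T.card ≤ T.eraseNone.card + 1 := by
  by_cases hn : none ∈ T
  · have h := Finset.card_eraseNone_of_mem hn
    have hpos : 0 < T.card := Finset.card_pos.mpr ⟨none, hn⟩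
    omega
  · have h := Finset.card_eraseNone_of_not_mem hn
    omega

theorem card_eraseNone_of_notMem (T : Finset (Option ι)) (hn : none ∉ T) :
    T.eraseNone.card = T.card := by
  exact Finset.card_eraseNone_of_not_mem hn

theorem degree_oddify_le (c : Bool) (f : (ι → Bool) → ℝ) :
    degree (oddify c f) ≤ degree f + 1 := by
  apply degree_le
  intro T hT
  rw [fhat_oddify] at hT
  split_ifs at hT with h
  · have h1 : fhat f T.eraseNone ≠ 0 := right_ne_zero_of_mul hT
    have h2 := card_le_degree f _ h1
    have h3 := card_le_eraseNone T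
    omega
  · exact absurd rfl hT

theorem degree_oddify_le_of_odd (c : Bool) (f : (ι → Bool) → ℝ) (hodd : Odd (degree f)) :
    degree (oddify c f) ≤ degree f := by
  apply degree_le
  intro T hT
  rw [fhat_oddify] at hT
  split_ifs at hT with h
  · have h1 : fhat f T.eraseNone ≠ 0 := right_ne_zero_of_mul hT
    have h2 := card_le_degree f _ h1
    by_cases hn : none ∈ T
    · have he : Even T.eraseNone.card := h.mpr hn
      have h3 := card_le_eraseNone T
      have hne : T.eraseNone.card ≠ degree f := by
        intro heq
        rw [heq] at he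
        exact (Nat.not_even_iff_odd.mpr hodd) he
      omega
    · rw [← card_eraseNone_of_notMem T hn]
      exact h2
  · exact absurd rfl hT

end

/-- transport of a function on the cube along a bijection of the index sets -/
def reindex {ι κ : Type} (e : ι ≃ κ) (f : (ι → Bool) → ℝ) : (κ → Bool) → ℝ :=
  fun x => f (fun i => x (e i))

section
variable {ι κ : Type} [Fintype ι] [DecidableEq ι] [Fintype κ] [DecidableEq κ]

theorem fhat_reindex (e : ι ≃ κ) (f : (ι → Bool) → ℝ) (T : Finset κ) :
    fhat (reindex e f) T = fhat f (T.map e.symm.toEmbedding) := by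
  unfold fhat
  rw [Fintype.card_congr e]
  congr 1
  apply Fintype.sum_equiv (Equiv.arrowCongr e.symm (Equiv.refl Bool))
  intro x
  unfold reindex chi
  rw [Finset.prod_map]
  simp only [Equiv.arrowCongr, Equiv.coe_fn_mk, Equiv.symm_symm, Equiv.coe_refl,
    Function.comp_def, id_eq, Equiv.coe_toEmbedding, Equiv.apply_symm_apply]

theorem fhat_reindex_map (e : ι ≃ κ) (f : (ι → Bool) → ℝ) (S : Finset ι) :
    fhat (reindex e f) (S.map e.toEmbedding) = fhat f S := by
  rw [fhat_reindex]
  congr 1
  ext i
  simp

theorem linSum_reindex (e : ι ≃ κ) (f : (ι → Bool) → ℝ) :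
    linSum (reindex e f) = linSum f := by
  unfold linSum
  simp_rw [fhat_reindex]
  rw [← Equiv.sum_comp e (fun k => fhat f (({k} : Finset κ).map e.symm.toEmbedding))]
  apply Finset.sum_congr rfl
  intro i _
  congr 1
  ext j
  simp

theorem degree_reindex (e : ι ≃ κ) (f : (ι → Bool) → ℝ) :
    degree (reindex e f) = degree f := by
  apply le_antisymm
  · apply degree_le
    intro T hT
    rw [fhat_reindex] at hT
    have := card_le_degree f _ hT
    simpa using this
  · apply degree_le
    intro S hS
    rw [← fhat_reindex_map e f S] at hS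
    have := card_le_degree (reindex e f) _ hS
    simpa using this

end

end Vale.Agent.Lib.P047
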