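import Vale.Agent.Lib.P047.BiasIneq
import Vale.Agent.Lib.P047.OdeComp
import Vale.Agent.Lib.P047.InterpZero
import Vale.Agent.Lib.P047.Oddify

/-!
The linear upper bound `∑_i f̂({i}) ≤ (39/40) deg f` for Boolean functions of degree at least `2`.
-/

namespace Vale.Agent.Lib.P047

open Finset Polynomial Polynomial.Chebyshev
open Vale.Agent.Lib.P316

section
variable {κ : Type} [Fintype κ] [DecidableEq κ]

/-- the odd part `(f(z) - f(-z)) / 2` of a function on the cube -/
noncomputable def oddPart (f : (κ → Bool) → ℝ) : (κ → Bool) → ℝ :=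
  fun z => (f z - f (fun i => xor true (z i))) / 2

theorem fhat_oddPart (f : (κ → Bool) → ℝ) (T : Finset κ) :
    fhat (oddPart f) T = (1 - (-1 : ℝ) ^ T.card) / 2 * fhat f T := by
  unfold fhat oddPart
  have h1 := sum_flip true (fun w : κ → Bool => f w * chi T w)
  simp only [chi_flip, sgn_true] at h1
  have h2 : ∑ z : κ → Bool, f (fun i => xor true (z i)) * chi T z
      = (-1 : ℝ) ^ T.card * ∑ w : κ → Bool, f w * chi T w := by
    rw [h1, Finset.mul_sum]
    apply Finset.sum_congr rfl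
    intro z _
    have hsq : (-1 : ℝ) ^ T.card * (-1 : ℝ) ^ T.card = 1 := by rw [← mul_pow]; norm_num
    linear_combination (-(f (fun i => xor true (z i)) * chi T z)) * hsq
  have h3 : ∑ z : κ → Bool, (f z - f (fun i => xor true (z i))) / 2 * chi T z
      = (∑ z : κ → Bool, f z * chi T z
          - ∑ z : κ → Bool, f (fun i => xor true (z i)) * chi T z) / 2 := by
    rw [← Finset.sum_sub_distrib, Finset.sum_div]
    apply Finset.sum_congr rfl
    intro z _; ring
  rw [h3, h2]
  ring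

theorem eval_biasPoly_sum (g : (κ → Bool) → ℝ) (t : ℝ) :
    (biasPoly g).eval t = ∑ T : Finset κ, fhat g T * t ^ T.card := by
  unfold biasPoly
  simp [eval_finsetSum]

theorem eval_derivative_biasPoly_sum (g : (κ → Bool) → ℝ) (t : ℝ) :
    (derivative (biasPoly g)).eval t
      = ∑ T : Finset κ, fhat g T * ((T.card : ℝ) * t ^ (T.card - 1)) := by
  unfold biasPoly
  simp only [derivative_sum, eval_finsetSum]
  apply Finset.sum_congr rfl
  intro T _
  rw [derivative_C_mul_X_pow]
  simp only [eval_mul, eval_C, eval_pow, eval_X]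
  ring

theorem eval_biasPoly_oddPart (f : (κ → Bool) → ℝ) (t : ℝ) :
    (biasPoly (oddPart f)).eval t = ((biasPoly f).eval t - (biasPoly f).eval (-t)) / 2 := by
  rw [eval_biasPoly_sum, eval_biasPoly_sum, eval_biasPoly_sum, ← Finset.sum_sub_distrib,
    Finset.sum_div]
  apply Finset.sum_congr rfl
  intro T _
  rw [fhat_oddPart, neg_pow t T.card]
  ring

theorem eval_derivative_biasPoly_oddPart (f : (κ → Bool) → ℝ) (t : ℝ) :
    (derivative (biasPoly (oddPart f))).eval t
      = ((derivative (biasPoly f)).eval t + (derivative (biasPoly f)).eval (-t)) / 2 := by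
  rw [eval_derivative_biasPoly_sum, eval_derivative_biasPoly_sum, eval_derivative_biasPoly_sum,
    ← Finset.sum_add_distrib, Finset.sum_div]
  apply Finset.sum_congr rfl
  intro T _
  rw [fhat_oddPart]
  rcases Nat.eq_zero_or_pos T.card with h | h
  · rw [h]; simp
  · obtain ⟨j, hj⟩ : ∃ j, T.card = j + 1 := ⟨T.card - 1, by omega⟩
    rw [hj]
    simp only [Nat.add_sub_cancel]
    rw [neg_pow t j]
    push_cast
    ring

theorem abs_oddPart_le (f : (κ → Bool) → ℝ) (hf : IsBoolean f) (z : κ → Bool) :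
    |oddPart f z| ≤ 1 := by
  unfold oddPart
  rcases hf z with h1 | h1 <;> rcases hf (fun i => xor true (z i)) with h2 | h2 <;>
    rw [h1, h2] <;> norm_num

theorem degree_biasPoly_oddPart_le (f : (κ → Bool) → ℝ) (r : ℕ) (hd : degree f ≤ 2 * r + 2) :
    (biasPoly (oddPart f)).degree ≤ (2 * r + 1 : ℕ) := by
  apply degree_biasPoly_le
  intro T hT
  rw [fhat_oddPart]
  by_cases hodd : Odd T.card
  · have h3 : 2 * r + 2 < T.card := by
      obtain ⟨j, hj⟩ := hodd
      omega
    have h4 : fhat f T = 0 := by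
      by_contra hne
      have := card_le_degree f T hne
      omega
    rw [h4]; ring
  · have heven : Even T.card := Nat.not_odd_iff_even.mp hodd
    rw [heven.neg_one_pow]; ring

theorem eval_zero_derivative_biasPoly (g : (κ → Bool) → ℝ) :
    (derivative (biasPoly g)).eval 0 = linSum g := by
  rw [eval_derivative_biasPoly_eq_cc]
  unfold linSum
  apply Finset.sum_congr rfl
  intro i _
  unfold cc
  rw [Finset.sum_eq_single {i}]
  · simp
  · intro T _ hT
    split_ifs with h
    · have hcard : 2 ≤ T.card := by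
        by_contra hc
        push_neg at hc
        apply hT
        exact (Finset.eq_of_subset_of_card_le h (by simp; omega)).symm
      have hne : T.card - ({i} : Finset κ).card ≠ 0 := by
        rw [Finset.card_singleton]; omega
      rw [zero_pow hne, mul_zero]
    · rfl
  · intro h; exact absurd (Finset.mem_univ _) h

theorem oddPart_diff_ineq (f : (κ → Bool) → ℝ) (hf : IsBoolean f) (d : ℕ)
    (hd : ∀ T : Finset κ, d < T.card → fhat f T = 0) (t : ℝ) (ht : |t| ≤ 1) :
    (1 - t ^ 2) * (derivative (biasPoly (oddPart f))).eval t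
      ≤ d * (1 - ((biasPoly (oddPart f)).eval t) ^ 2) := by
  rw [eval_derivative_biasPoly_oddPart, eval_biasPoly_oddPart]
  have h1 := bias_diff_ineq f hf d hd t ht
  have h2 := bias_diff_ineq f hf d hd (-t) (by rwa [abs_neg])
  have e : (1 - (-t) ^ 2) = 1 - t ^ 2 := by ring
  rw [e] at h2
  have h1t : 0 ≤ 1 - t ^ 2 := by
    have := abs_le.mp ht
    nlinarith
  have a1 := le_abs_self ((derivative (biasPoly f)).eval t)
  have a2 := le_abs_self ((derivative (biasPoly f)).eval (-t))
  have hd0 : (0 : ℝ) ≤ d := Nat.cast_nonneg d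
  have b1 := mul_le_mul_of_nonneg_left a1 h1t
  have b2 := mul_le_mul_of_nonneg_left a2 h1t
  have h4 : (((biasPoly f).eval t - (biasPoly f).eval (-t)) / 2) ^ 2
      ≤ (((biasPoly f).eval t) ^ 2 + ((biasPoly f).eval (-t)) ^ 2) / 2 := by
    nlinarith [sq_nonneg ((biasPoly f).eval t + (biasPoly f).eval (-t))]
  have h5 := mul_le_mul_of_nonneg_left h4 hd0
  nlinarith

theorem oddPart_value_bound (f : (κ → Bool) → ℝ) (hf : IsBoolean f) (e : ℕ)
    (hd : ∀ T : Finset κ, e + 1 < T.card → fhat f T = 0) (x : ℝ) (hx0 : 0 ≤ x) (hx1 : x < 1) :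
    (1 + (biasPoly (oddPart f)).eval x) * (1 - x) ^ (e + 1)
      ≤ (1 - (biasPoly (oddPart f)).eval x) * (1 + x) ^ (e + 1) := by
  apply ode_comparison e (fun t => (biasPoly (oddPart f)).eval t)
    (fun t => (derivative (biasPoly (oddPart f))).eval t) x hx0 hx1
  · intro t _
    exact Polynomial.hasDerivAt _ t
  · intro t ht
    exact abs_eval_biasPoly_le _ (abs_oddPart_le f hf) t
      (abs_le.mpr ⟨by linarith [ht.1], by linarith [ht.2]⟩)
  · show (biasPoly (oddPart f)).eval 0 = 0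
    rw [eval_biasPoly_oddPart]; simp
  · intro t ht
    have h := oddPart_diff_ineq f hf (e + 1) hd t
      (abs_le.mpr ⟨by linarith [ht.1], by linarith [ht.2]⟩)
    push_cast at h
    exact h

end

/-! ### The middle node -/

theorem nd_mid (r : ℕ) :
    nd (2 * r + 1) r = Real.sin (Real.pi / (2 * (2 * (r : ℝ) + 1))) := by
  unfold nd node
  rw [← Real.cos_pi_div_two_sub]
  congr 1
  push_cast
  field_simp
  ring

theorem nd_mid_pos (r : ℕ) : 0 < nd (2 * r + 1) r := by
  rw [nd_mid]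
  apply Real.sin_pos_of_pos_of_lt_pi
  · have := Real.pi_pos
    positivity
  · have hpi := Real.pi_pos
    rw [div_lt_iff₀ (by positivity)]
    have : (0 : ℝ) ≤ r := Nat.cast_nonneg r
    nlinarith

theorem nd_mid_le (r : ℕ) : 2 * (2 * (r : ℝ) + 1) * nd (2 * r + 1) r ≤ Real.pi := by
  rw [nd_mid]
  have hpos : (0 : ℝ) < 2 * (2 * (r : ℝ) + 1) := by positivity
  have h := Real.sin_le (x := Real.pi / (2 * (2 * (r : ℝ) + 1)))
    (by have := Real.pi_pos; positivity)
  calc 2 * (2 * (r : ℝ) + 1) * Real.sin (Real.pi / (2 * (2 * (r : ℝ) + 1)))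
      ≤ 2 * (2 * (r : ℝ) + 1) * (Real.pi / (2 * (2 * (r : ℝ) + 1))) :=
        mul_le_mul_of_nonneg_left h hpos.le
    _ = Real.pi := by field_simp

/-! ### Numerical lemmas -/

theorem exp_four_le : Real.exp 4 ≤ 54.6 := by
  have h := Real.exp_one_lt_d9
  have e : Real.exp 4 = Real.exp 1 ^ 4 := by
    rw [← Real.exp_nat_mul]; norm_num
  rw [e]
  calc Real.exp 1 ^ 4 ≤ 2.7182818286 ^ 4 := pow_le_pow_left₀ (Real.exp_pos _).le h.le 4
    _ ≤ 54.6 := by norm_num

theorem num_generic (M s q : ℝ) (d : ℕ) (hM : 5 ≤ M) (hs0 : 0 < s)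
    (hs : 2 * M * s ≤ Real.pi) (hdM : 41 * (d : ℝ) ≤ 42 * M)
    (hq : (1 + q) * (1 - s) ^ d ≤ (1 - q) * (1 + s) ^ d) :
    M - (M * s ^ 2)⁻¹ * (2 * (1 - q)) ≤ 971 / 1000 * M := by
  have hpi := Real.pi_lt_d2
  have hMpos : 0 < M := by linarith
  have hs1 : s ≤ 0.315 := by
    have := mul_le_mul_of_nonneg_right hM hs0.le
    nlinarith
  have hds : (d : ℝ) * s ≤ 1.6135 := by
    have := mul_le_mul_of_nonneg_right hdM hs0.le
    nlinarith
  have h1s : 0 < 1 - s := by linarith
  have hu0 : 0 ≤ s / (1 - s) := div_nonneg hs0.le h1s.le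
  have hdu : (d : ℝ) * (s / (1 - s)) ≤ 2.3556 := by
    rw [← mul_div_assoc, div_le_iff₀ h1s]
    nlinarith
  have ha : (1 + s) ^ d ≤ Real.exp (d * s) := by
    rw [Real.exp_nat_mul]
    apply pow_le_pow_left₀ (by linarith)
    linarith [Real.add_one_le_exp s]
  have hb : Real.exp (-((d : ℝ) * (s / (1 - s)))) ≤ (1 - s) ^ d := by
    have h1 : Real.exp (-(s / (1 - s))) ≤ 1 - s := by
      rw [Real.exp_neg]
      have h2 : 1 + s / (1 - s) ≤ Real.exp (s / (1 - s)) := by
        linarith [Real.add_one_le_exp (s / (1 - s))]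
      have h3 : 1 + s / (1 - s) = (1 - s)⁻¹ := by field_simp; ring
      rw [h3] at h2
      have h4 := inv_anti₀ (inv_pos.mpr h1s) h2
      rwa [inv_inv] at h4
    calc Real.exp (-((d : ℝ) * (s / (1 - s)))) = Real.exp ((d : ℝ) * (-(s / (1 - s)))) := by
          ring_nf
      _ = Real.exp (-(s / (1 - s))) ^ d := Real.exp_nat_mul _ _
      _ ≤ (1 - s) ^ d := pow_le_pow_left₀ (Real.exp_pos _).le h1 d
  have hbpos : 0 < (1 - s) ^ d := pow_pos h1s d
  have hapos : 0 < (1 + s) ^ d := pow_pos (by linarith) d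
  have hab : (1 + s) ^ d ≤ 54.6 * (1 - s) ^ d := by
    calc (1 + s) ^ d ≤ Real.exp (d * s) := ha
      _ = Real.exp (d * s + (d : ℝ) * (s / (1 - s))) * Real.exp (-((d : ℝ) * (s / (1 - s)))) := by
          rw [← Real.exp_add]; ring_nf
      _ ≤ Real.exp 4 * Real.exp (-((d : ℝ) * (s / (1 - s)))) := by
          apply mul_le_mul_of_nonneg_right _ (Real.exp_pos _).le
          apply Real.exp_le_exp.mpr; linarith
      _ ≤ 54.6 * (1 - s) ^ d := mul_le_mul exp_four_le hb (Real.exp_pos _).le (by norm_num)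
  have hq1 : 2 / 55.6 ≤ 1 - q := by
    have h1 : 2 * (1 - s) ^ d ≤ (1 - q) * ((1 + s) ^ d + (1 - s) ^ d) := by nlinarith
    have hq0 : 0 < 1 - q := by
      by_contra hc
      push_neg at hc
      nlinarith
    have h2 : (1 - q) * ((1 + s) ^ d + (1 - s) ^ d) ≤ (1 - q) * (55.6 * (1 - s) ^ d) := by
      apply mul_le_mul_of_nonneg_left _ hq0.le; linarith
    have h3 : 2 * (1 - s) ^ d ≤ ((1 - q) * 55.6) * (1 - s) ^ d := by linarith
    have h4 := le_of_mul_le_mul_right h3 hbpos
    rw [div_le_iff₀ (by norm_num)]; linarith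
  have hinv : 4 * M / 9.9225 ≤ (M * s ^ 2)⁻¹ := by
    have hpos : 0 < M * s ^ 2 := by positivity
    rw [← one_div, le_div_iff₀ hpos]
    have h1 : (2 * M * s) ^ 2 ≤ Real.pi ^ 2 :=
      pow_le_pow_left₀ (by positivity) hs 2
    have h2 : Real.pi ^ 2 < 9.9225 := by nlinarith [Real.pi_pos]
    have h3 : 4 * M / 9.9225 * (M * s ^ 2) = (2 * M * s) ^ 2 / 9.9225 := by ring
    rw [h3, div_le_one (by norm_num)]
    linarith
  have hg : 4 * M / 9.9225 * (2 * (2 / 55.6)) ≤ (M * s ^ 2)⁻¹ * (2 * (1 - q)) := by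
    apply mul_le_mul hinv (by linarith) (by norm_num) (inv_nonneg.mpr (by positivity))
  have hnum : 29 / 1000 * M ≤ 4 * M / 9.9225 * (2 * (2 / 55.6)) := by
    have e : 4 * M / 9.9225 * (2 * (2 / 55.6)) = M * (16 / (9.9225 * 55.6)) := by ring
    rw [e]
    have : (29 : ℝ) / 1000 ≤ 16 / (9.9225 * 55.6) := by norm_num
    nlinarith
  linarith

theorem num_three (q : ℝ) (hq : (1 + q) * (1 - 1 / 2) ^ 3 ≤ (1 - q) * (1 + 1 / 2) ^ 3) :
    (3 : ℝ) - (3 * (1 / 2 : ℝ) ^ 2)⁻¹ * (2 * (1 - q)) ≤ 39 / 40 * 3 := by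
  norm_num at hq ⊢
  linarith

section
variable {κ : Type} [Fintype κ] [DecidableEq κ]

theorem fhat_eq_zero_of_degree_lt (f : (κ → Bool) → ℝ) (T : Finset κ) (hT : degree f < T.card) :
    fhat f T = 0 := by
  by_contra hne
  have := card_le_degree f T hne
  omega

theorem linSum_eq_derivative_oddPart (f : (κ → Bool) → ℝ) :
    linSum f = (derivative (biasPoly (oddPart f))).eval 0 := by
  rw [eval_derivative_biasPoly_oddPart, neg_zero, eval_zero_derivative_biasPoly]; ring

theorem abs_eval_oddPart_le (f : (κ → Bool) → ℝ) (hf : IsBoolean f) :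
    ∀ x ∈ Set.Icc (-1 : ℝ) 1, |(biasPoly (oddPart f)).eval x| ≤ 1 :=
  fun x hx => abs_eval_biasPoly_le _ (abs_oddPart_le f hf) x (abs_le.mpr ⟨hx.1, hx.2⟩)

theorem eval_oddPart_neg (f : (κ → Bool) → ℝ) (x : ℝ) :
    (biasPoly (oddPart f)).eval (-x) = - (biasPoly (oddPart f)).eval x := by
  rw [eval_biasPoly_oddPart, eval_biasPoly_oddPart, neg_neg]; ring

/-- the refined bound with the value of the odd part at the middle node -/
theorem linSum_le_refined (f : (κ → Bool) → ℝ) (hf : IsBoolean f) (r : ℕ) (hr : 1 ≤ r)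
    (hdeg : degree f ≤ 2 * r + 2) :
    linSum f ≤ 2 * (r : ℝ) + 1 - ((2 * (r : ℝ) + 1) * nd (2 * r + 1) r ^ 2)⁻¹
      * (2 * (1 - (biasPoly (oddPart f)).eval (nd (2 * r + 1) r))) := by
  have h := derivative_eval_zero_le_refined r hr (degree_biasPoly_oddPart_le f r hdeg)
    (abs_eval_oddPart_le f hf)
  rw [← linSum_eq_derivative_oddPart, eval_oddPart_neg] at h
  have e : (2 - ((biasPoly (oddPart f)).eval (nd (2 * r + 1) r)
        - -(biasPoly (oddPart f)).eval (nd (2 * r + 1) r)))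
      = 2 * (1 - (biasPoly (oddPart f)).eval (nd (2 * r + 1) r)) := by ring
  rw [e] at h
  exact h

theorem linSum_le_generic (f : (κ → Bool) → ℝ) (hf : IsBoolean f) (r : ℕ) (hr : 2 ≤ r)
    (hdeg1 : degree f ≤ 2 * r + 2) (hdeg0 : 1 ≤ degree f)
    (h41 : 41 * (degree f : ℝ) ≤ 42 * (2 * (r : ℝ) + 1)) :
    linSum f ≤ 971 / 1000 * (2 * (r : ℝ) + 1) := by
  have h1 := linSum_le_refined f hf r (by omega) hdeg1
  obtain ⟨e, he⟩ : ∃ e, degree f = e + 1 := ⟨degree f - 1, by omega⟩
  have hs0 := nd_mid_pos r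
  have hsle := nd_mid_le r
  have hr5 : (5 : ℝ) ≤ 2 * (r : ℝ) + 1 := by
    have : (2 : ℝ) ≤ r := by exact_mod_cast hr
    linarith
  have hs1 : nd (2 * r + 1) r < 1 := by
    have hpi := Real.pi_lt_d2
    have := mul_le_mul_of_nonneg_right hr5 hs0.le
    nlinarith
  have h2 := oddPart_value_bound f hf e
    (fun T hT => fhat_eq_zero_of_degree_lt f T (by omega)) (nd (2 * r + 1) r) hs0.le hs1
  rw [← he] at h2
  have h3 := num_generic (2 * (r : ℝ) + 1) (nd (2 * r + 1) r)
    ((biasPoly (oddPart f)).eval (nd (2 * r + 1) r)) (degree f) hr5 hs0 hsle h41 h2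
  linarith

theorem linSum_le_three (f : (κ → Bool) → ℝ) (hf : IsBoolean f) (hdeg : degree f = 3) :
    linSum f ≤ 39 / 40 * 3 := by
  have h1 := linSum_le_refined f hf 1 (le_refl 1) (by omega)
  have hs : nd (2 * 1 + 1) 1 = 1 / 2 := by
    unfold nd node
    have : ((1 : ℕ) : ℝ) * Real.pi / ((2 * 1 + 1 : ℕ) : ℝ) = Real.pi / 3 := by
      push_cast; ring
    rw [this, Real.cos_pi_div_three]
  have h2 := oddPart_value_bound f hf 2
    (fun T hT => fhat_eq_zero_of_degree_lt f T (by omega)) (1 / 2) (by norm_num) (by norm_num)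
  rw [hs] at h1
  have h3 := num_three _ h2
  push_cast at h1
  have e : (2 * (1 : ℝ) + 1) = 3 := by norm_num
  rw [e] at h1
  linarith

/-- **Linear upper bound with a constant below one.** -/
theorem linSum_le_linear (f : (κ → Bool) → ℝ) (hf : IsBoolean f) (hd : 2 ≤ degree f) :
    linSum f ≤ 39 / 40 * (degree f : ℝ) := by
  rcases Nat.even_or_odd' (degree f) with ⟨k, hk | hk⟩
  · -- even degree `2k = 2r + 2`
    obtain ⟨r, rfl⟩ : ∃ r, k = r + 1 := ⟨k - 1, by omega⟩
    have hdR : (degree f : ℝ) = 2 * (r : ℝ) + 2 := by rw [hk]; push_cast; ring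
    by_cases hsmall : degree f ≤ 40
    · have h1 := derivative_eval_zero_le r (degree_biasPoly_oddPart_le f r (by omega))
        (abs_eval_oddPart_le f hf)
      rw [← linSum_eq_derivative_oddPart] at h1
      have h40 : (degree f : ℝ) ≤ 40 := by exact_mod_cast hsmall
      linarith
    · have hr : 20 ≤ r := by omega
      have hrR : (20 : ℝ) ≤ r := by exact_mod_cast hr
      have h1 := linSum_le_generic f hf r (by omega) (by omega) (by omega)
        (by rw [hdR]; linarith)
      linarith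
  · -- odd degree `2k + 1`
    by_cases hk1 : k = 1
    · subst hk1
      have h1 := linSum_le_three f hf (by omega)
      have hdR : (degree f : ℝ) = 3 := by rw [hk]; norm_num
      rw [hdR]
      exact h1
    · have hk2 : 2 ≤ k := by omega
      have hdR : (degree f : ℝ) = 2 * (k : ℝ) + 1 := by rw [hk]; push_cast; ring
      have h1 := linSum_le_generic f hf k hk2 (by omega) (by omega) (by rw [hdR]; linarith)
      have hkR : (2 : ℝ) ≤ k := by exact_mod_cast hk2
      rw [hdR]
      linarith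

end

end Vale.Agent.Lib.P047
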